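import Mathlib

/-!
P201, line H: closed hypermaps (pure combinatorics).  Squares `S` (finite), permutations `X`, `Y`.
Vertices = cycles of `X` (o), of `Y` (e), of `Y * X` (m); edges = `S × Bool`
(`(s,false)` between `s` and `X s`, `(s,true)` between `s` and `Y s`).
-/

namespace Vale.Agent.P201.H

open Finset

variable {S : Type} (X Y : Equiv.Perm S)

/-- cycles of a permutation -/
abbrev Cyc (f : Equiv.Perm S) : Type := Quotient (Equiv.Perm.SameCycle.setoid f)

/-- vertices -/
abbrev Vt : Type := Cyc X ⊕ (Cyc Y ⊕ Cyc (Y * X))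

def oV (s : S) : Vt X Y := Sum.inl (Quotient.mk _ s)
def eV (s : S) : Vt X Y := Sum.inr (Sum.inl (Quotient.mk _ s))
def mV (s : S) : Vt X Y := Sum.inr (Sum.inr (Quotient.mk _ s))

/-- sides of an edge -/
def lf (g : S × Bool) : S := g.1
def rf (g : S × Bool) : S := if g.2 then Y g.1 else X g.1

/-- ends of an edge -/
def en1 (g : S × Bool) : Vt X Y := if g.2 then eV X Y g.1 else oV X Y g.1
def en2 (g : S × Bool) : Vt X Y := if g.2 then mV X Y (Y g.1) else mV X Y g.1

theorem oV_eq {s t : S} : oV X Y s = oV X Y t ↔ X.SameCycle s t := by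
  unfold oV; rw [Sum.inl.injEq, Quotient.eq]; rfl

theorem eV_eq {s t : S} : eV X Y s = eV X Y t ↔ Y.SameCycle s t := by
  unfold eV; rw [Sum.inr.injEq, Sum.inl.injEq, Quotient.eq]; rfl

theorem mV_eq {s t : S} : mV X Y s = mV X Y t ↔ (Y * X).SameCycle s t := by
  unfold mV; rw [Sum.inr.injEq, Sum.inr.injEq, Quotient.eq]; rfl

theorem oV_X (s : S) : oV X Y (X s) = oV X Y s := by
  rw [oV_eq]; exact (Equiv.Perm.sameCycle_apply_left).2 (Equiv.Perm.SameCycle.refl _ _)

theorem eV_Y (s : S) : eV X Y (Y s) = eV X Y s := by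
  rw [eV_eq]; exact (Equiv.Perm.sameCycle_apply_left).2 (Equiv.Perm.SameCycle.refl _ _)

theorem mV_Z (s : S) : mV X Y (Y (X s)) = mV X Y s := by
  rw [mV_eq]
  have := (Equiv.Perm.sameCycle_apply_left (f := Y * X) (x := s) (y := s)).2
    (Equiv.Perm.SameCycle.refl _ _)
  simpa using this

/-- the edge `g` is at the vertex `v` -/
def At (v : Vt X Y) (g : S × Bool) : Prop := en1 X Y g = v ∨ en2 X Y g = v

/-- adjacency of squares -/
def adj (s t : S) : Prop := X s = t ∨ X t = s ∨ Y s = t ∨ Y t = s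

theorem adj_symm {s t : S} (h : adj X Y s t) : adj X Y t s := by
  unfold adj at *; tauto

/-- path inside a set -/
def Pth (U : Set S) (s t : S) : Prop :=
  Relation.ReflTransGen (fun a b => a ∈ U ∧ b ∈ U ∧ adj X Y a b) s t

def Conn (U : Set S) : Prop := ∀ s ∈ U, ∀ t ∈ U, Pth X Y U s t

variable {X Y}

theorem Pth.symm {U : Set S} {s t : S} (h : Pth X Y U s t) : Pth X Y U t s := by
  unfold Pth at *
  induction h with
  | refl => exact Relation.ReflTransGen.refl
  | tail _ hbc ih => exact Relation.ReflTransGen.head ⟨hbc.2.1, hbc.1, adj_symm X Y hbc.2.2⟩ ih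

theorem Pth.mono {U V : Set S} (hUV : U ⊆ V) {s t : S} (h : Pth X Y U s t) : Pth X Y V s t := by
  unfold Pth at *
  induction h with
  | refl => exact Relation.ReflTransGen.refl
  | tail _ hbc ih => exact Relation.ReflTransGen.tail ih ⟨hUV hbc.1, hUV hbc.2.1, hbc.2.2⟩

theorem Pth.mem {U : Set S} {s t : S} (h : Pth X Y U s t) (hs : s ∈ U) : t ∈ U := by
  unfold Pth at h
  induction h with
  | refl => exact hs
  | tail _ hbc _ => exact hbc.2.1

theorem Pth.trans {U : Set S} {s t u : S} (h : Pth X Y U s t) (h' : Pth X Y U t u) :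
    Pth X Y U s u := Relation.ReflTransGen.trans h h'

theorem Pth.refl {U : Set S} (s : S) : Pth X Y U s s := Relation.ReflTransGen.refl

theorem Pth.step {U : Set S} {s t : S} (hs : s ∈ U) (ht : t ∈ U) (h : adj X Y s t) :
    Pth X Y U s t := Relation.ReflTransGen.single ⟨hs, ht, h⟩

/-- going around a cycle of a permutation -/
theorem cyc_chain [Finite S] (f : Equiv.Perm S) (s : S) (χ : S → Prop)
    (h : ∀ t, f.SameCycle s t → t ≠ s → (χ t ↔ χ (f t))) : χ s ↔ χ (f s) := by
  classical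
  have hpos : 0 < orderOf f := orderOf_pos f
  have key : ∀ k, (∀ j, 1 ≤ j → j < k → (f ^ j) s ≠ s) → 1 ≤ k → (χ (f s) ↔ χ ((f ^ k) s)) := by
    intro k
    induction k with
    | zero => intro _ h1; omega
    | succ k ih =>
      intro hk _
      rcases Nat.eq_zero_or_pos k with h0 | h0
      · subst h0; simp
      · have h1 := ih (fun j hj hj' => hk j hj (by omega)) h0
        rw [h1]
        have h2 := h ((f ^ k) s) ⟨(k : ℤ), by simp⟩ (hk k h0 (by omega))
        rw [h2, pow_succ']
        rfl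
  have hex : ∃ k, 1 ≤ k ∧ (f ^ k) s = s := ⟨orderOf f, hpos, by rw [pow_orderOf_eq_one]; rfl⟩
  obtain ⟨k, ⟨hk1, hks⟩, hmin⟩ : ∃ k, (1 ≤ k ∧ (f ^ k) s = s) ∧
      ∀ j, j < k → ¬ (1 ≤ j ∧ (f ^ j) s = s) :=
    ⟨Nat.find hex, Nat.find_spec hex, fun j hj => Nat.find_min hex hj⟩
  have := key k (fun j hj hj' hc => hmin j hj' ⟨hj, hc⟩) hk1
  rw [this, hks]

theorem en1_x (s : S) : en1 X Y (s, false) = oV X Y s := rfl
theorem en2_x (s : S) : en2 X Y (s, false) = mV X Y s := rfl
theorem en1_y (s : S) : en1 X Y (s, true) = eV X Y s := rfl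
theorem en2_y (s : S) : en2 X Y (s, true) = mV X Y (Y s) := rfl
theorem rf_x (s : S) : rf X Y (s, false) = X s := rfl
theorem rf_y (s : S) : rf X Y (s, true) = Y s := rfl
theorem lf_x (s : S) (b : Bool) : lf (s, b) = s := rfl

/-- STAR LEMMA: a property of squares which is preserved across all edges at `v` other than `g` is
preserved across `g`. -/
theorem star [Finite S] (v : Vt X Y) (g : S × Bool) (hg : At X Y v g) (χ : S → Prop)
    (h : ∀ g', At X Y v g' → g' ≠ g → (χ (lf g') ↔ χ (rf X Y g'))) :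
    χ (lf g) ↔ χ (rf X Y g) := by
  obtain ⟨s, b⟩ := g
  have hx : ∀ t, (oV X Y t = v ∨ mV X Y t = v) → (t, false) ≠ (s, b) → (χ t ↔ χ (X t)) := by
    intro t ht hne
    exact h (t, false) (by rcases ht with h1 | h1; exacts [Or.inl h1, Or.inr h1]) hne
  have hy : ∀ t, (eV X Y t = v ∨ mV X Y (Y t) = v) → (t, true) ≠ (s, b) → (χ t ↔ χ (Y t)) := by
    intro t ht hne
    exact h (t, true) (by rcases ht with h1 | h1; exacts [Or.inl h1, Or.inr h1]) hne
  cases b with
  | false =>
    rw [rf_x, lf_x]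
    rcases hg with hv | hv
    · rw [en1_x] at hv
      refine cyc_chain X s χ (fun t hst hts => hx t (Or.inl ?_) (by simpa using hts))
      rw [← hv, oV_eq]; exact hst.symm
    · rw [en2_x] at hv
      have hy' : ∀ t, mV X Y t = v → (χ (X t) ↔ χ (Y (X t))) := fun t ht =>
        hy (X t) (Or.inr (by rw [mV_Z]; exact ht)) (by simp)
      have hc := cyc_chain (Y * X) s χ (fun t hst hts => by
        have ht : mV X Y t = v := by rw [← hv, mV_eq]; exact hst.symm
        rw [hx t (Or.inr ht) (by simpa using hts), hy' t ht]; rfl)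
      rw [hc, hy' s hv]; rfl
  | true =>
    rw [rf_y, lf_x]
    rcases hg with hv | hv
    · rw [en1_y] at hv
      refine cyc_chain Y s χ (fun t hst hts => hy t (Or.inl ?_) (by simpa using hts))
      rw [← hv, eV_eq]; exact hst.symm
    · rw [en2_y] at hv
      -- `s = X u`
      obtain ⟨u, rfl⟩ := X.surjective s
      have hvu : mV X Y u = v := by rw [← hv, mV_Z]
      have hx' : ∀ t, mV X Y t = v → (χ t ↔ χ (X t)) := fun t ht => hx t (Or.inr ht) (by simp)
      have hc := cyc_chain (Y * X) u χ (fun t hst hts => by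
        have ht : mV X Y t = v := by rw [← hvu, mV_eq]; exact hst.symm
        rw [hx' t ht, hy (X t) (Or.inr (by rw [mV_Z]; exact ht)) (by simpa using hts)]; rfl)
      rw [← hx' u hvu, hc]; rfl

/-- FACE LEMMA: a property of vertices preserved along all edges of the square `s` other than `g`,
where `g` has `s` on exactly one side, is preserved along `g`. -/
theorem facel (s : S) (g : S × Bool) (hg : (lf g = s ∧ rf X Y g ≠ s) ∨ (rf X Y g = s ∧ lf g ≠ s))
    (χ : Vt X Y → Prop)
    (h : ∀ g', (lf g' = s ∨ rf X Y g' = s) → g' ≠ g → (χ (en1 X Y g') ↔ χ (en2 X Y g'))) :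
    χ (en1 X Y g) ↔ χ (en2 X Y g) := by
  -- the four edges
  have hx1 : (s, false) ≠ g → (χ (oV X Y s) ↔ χ (mV X Y s)) := fun hne =>
    h (s, false) (Or.inl rfl) hne
  have hy1 : (s, true) ≠ g → (χ (eV X Y s) ↔ χ (mV X Y (Y s))) := fun hne =>
    h (s, true) (Or.inl rfl) hne
  have e1 : oV X Y (X.symm s) = oV X Y s := by
    rw [← oV_X X Y (X.symm s), Equiv.apply_symm_apply]
  have e2 : mV X Y (X.symm s) = mV X Y (Y s) := by
    rw [← mV_Z X Y (X.symm s), Equiv.apply_symm_apply]
  have e3 : eV X Y (Y.symm s) = eV X Y s := by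
    rw [← eV_Y X Y (Y.symm s), Equiv.apply_symm_apply]
  have hx2 : (X.symm s, false) ≠ g → (χ (oV X Y s) ↔ χ (mV X Y (Y s))) := fun hne => by
    have := h (X.symm s, false) (Or.inr (by simp [rf_x])) hne
    rwa [en1_x, en2_x, e1, e2] at this
  have hy2 : (Y.symm s, true) ≠ g → (χ (eV X Y s) ↔ χ (mV X Y s)) := fun hne => by
    have := h (Y.symm s, true) (Or.inr (by simp [rf_y])) hne
    rwa [en1_y, en2_y, e3, Equiv.apply_symm_apply] at this
  obtain ⟨t, b⟩ := g
  cases b with
  | false =>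
    have hy1' := hy1 (by simp)
    have hy2' := hy2 (by simp)
    rw [en1_x, en2_x]
    rw [lf_x, rf_x] at hg
    rcases hg with ⟨h1, h2⟩ | ⟨h1, h2⟩
    · subst h1
      have hx2' := hx2 (by
        intro hc
        rw [Prod.mk.injEq] at hc
        exact h2 ((Equiv.symm_apply_eq X).1 hc.1).symm)
      rw [hx2', ← hy1', hy2']
    · subst h1
      have hx1' := hx1 (by
        intro hc
        rw [Prod.mk.injEq] at hc
        exact h2 hc.1.symm)
      rw [← oV_X, ← mV_Z, hx1', ← hy2', hy1']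
  | true =>
    have hx1' := hx1 (by simp)
    have hx2' := hx2 (by simp)
    rw [en1_y, en2_y]
    rw [lf_x, rf_y] at hg
    rcases hg with ⟨h1, h2⟩ | ⟨h1, h2⟩
    · subst h1
      have hy2' := hy2 (by
        intro hc
        rw [Prod.mk.injEq] at hc
        exact h2 ((Equiv.symm_apply_eq Y).1 hc.1).symm)
      rw [hy2', ← hx1', hx2']
    · subst h1
      have hy1' := hy1 (by
        intro hc
        rw [Prod.mk.injEq] at hc
        exact h2 hc.1.symm)
      rw [← eV_Y, hy1', ← hx2', hx1']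

end Vale.Agent.P201.H
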