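import Vale.Agent.P201.H.Base

namespace Vale.Agent.P201.H

section general

variable {α E : Type} (a b : E → α) (G : Set E)

/-- connected by edges of `G` -/
def ER (x y : α) : Prop :=
  Relation.ReflTransGen (fun x y => ∃ g ∈ G, (a g = x ∧ b g = y) ∨ (b g = x ∧ a g = y)) x y

/-- layers of the breadth first search from `B` -/
def lay (B : Set α) : ℕ → Set α
  | 0 => B
  | n + 1 => lay B n ∪ {x | ∃ g ∈ G, (a g = x ∧ b g ∈ lay B n) ∨ (b g = x ∧ a g ∈ lay B n)}

variable {a b G}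

theorem ER.symm {x y : α} (h : ER a b G x y) : ER a b G y x := by
  unfold ER at *
  induction h with
  | refl => exact Relation.ReflTransGen.refl
  | tail _ hbc ih =>
    obtain ⟨g, hg, h1⟩ := hbc
    exact Relation.ReflTransGen.head ⟨g, hg, h1.symm.imp (fun h => ⟨h.2, h.1⟩)
      (fun h => ⟨h.2, h.1⟩) |> fun h => h⟩ ih

theorem ER.trans {x y z : α} (h : ER a b G x y) (h' : ER a b G y z) : ER a b G x z :=
  Relation.ReflTransGen.trans h h'

theorem ER.rfl' (x : α) : ER a b G x x := Relation.ReflTransGen.refl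

theorem ER.edge {g : E} (hg : g ∈ G) : ER a b G (a g) (b g) :=
  Relation.ReflTransGen.single ⟨g, hg, Or.inl ⟨rfl, rfl⟩⟩

theorem ER.lay {B : Set α} {x y : α} (h : ER a b G x y) (hx : ∃ n, x ∈ lay a b G B n) :
    ∃ n, y ∈ lay a b G B n := by
  unfold ER at h
  induction h with
  | refl => exact hx
  | tail _ hbc ih =>
    obtain ⟨n, hn⟩ := ih
    obtain ⟨g, hg, h1⟩ := hbc
    refine ⟨n + 1, Or.inr ⟨g, hg, ?_⟩⟩
    rcases h1 with ⟨h1, h2⟩ | ⟨h1, h2⟩
    · exact Or.inr ⟨h2, h1 ▸ hn⟩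
    · exact Or.inl ⟨h2, h1 ▸ hn⟩

theorem lay_mono {B : Set α} {n m : ℕ} (h : n ≤ m) : lay a b G B n ⊆ lay a b G B m := by
  induction h with
  | refl => exact le_rfl
  | step _ ih => exact fun x hx => Or.inl (ih hx)

/-- breadth first search: rank, parent, parent edge -/
theorem exists_bfs [Nonempty E] (B P : Set α) (hP : ∀ x ∈ P, ∃ n, x ∈ lay a b G B n) :
    ∃ (rk : α → ℕ) (pe : α → E) (par : α → α), (∀ x n, x ∈ lay a b G B n → rk x ≤ n) ∧
      ∀ x ∈ P, x ∉ B → pe x ∈ G ∧ rk (par x) + 1 = rk x ∧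
        ((a (pe x) = x ∧ b (pe x) = par x) ∨ (b (pe x) = x ∧ a (pe x) = par x)) := by
  classical
  let rk : α → ℕ := fun x => sInf {n | x ∈ lay a b G B n}
  have h1 : ∀ x n, x ∈ lay a b G B n → rk x ≤ n := fun x n h => Nat.sInf_le h
  have h2 : ∀ x, (∃ n, x ∈ lay a b G B n) → x ∈ lay a b G B (rk x) := fun x h => Nat.sInf_mem h
  have key : ∀ x, x ∈ P → x ∉ B → ∃ (g : E) (y : α), g ∈ G ∧ rk y + 1 = rk x ∧
      ((a g = x ∧ b g = y) ∨ (b g = x ∧ a g = y)) := by
    intro x hx hxB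
    have hmem := h2 x (hP x hx)
    rcases hn : rk x with _ | m
    · rw [hn] at hmem; exact absurd hmem hxB
    · rw [hn] at hmem
      rcases hmem with hm | hm
      · have := h1 x m hm; omega
      · obtain ⟨g, hg, hgg⟩ := hm
        have aux : ∀ y, y ∈ lay a b G B m → ((a g = x ∧ b g = y) ∨ (b g = x ∧ a g = y)) →
            rk y + 1 = m + 1 := by
          intro y hy hor
          have h3 : rk y ≤ m := h1 y m hy
          have h4 : y ∈ lay a b G B (rk y) := h2 y ⟨m, hy⟩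
          have h5 : rk x ≤ rk y + 1 := by
            refine h1 x (rk y + 1) (Or.inr ⟨g, hg, ?_⟩)
            rcases hor with ⟨ha, hb⟩ | ⟨ha, hb⟩
            · exact Or.inl ⟨ha, hb ▸ h4⟩
            · exact Or.inr ⟨ha, hb ▸ h4⟩
          omega
        rcases hgg with ⟨ha, hb⟩ | ⟨ha, hb⟩
        · exact ⟨g, b g, hg, aux _ hb (Or.inl ⟨ha, rfl⟩), Or.inl ⟨ha, rfl⟩⟩
        · exact ⟨g, a g, hg, aux _ hb (Or.inr ⟨ha, rfl⟩), Or.inr ⟨ha, rfl⟩⟩
  choose! pe par hpp using key
  exact ⟨rk, pe, par, h1, fun x hx hxB => hpp x hx hxB⟩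

theorem bfs_inj {rk : α → ℕ} {pe : α → E} {par : α → α} {P : Set α}
    (h : ∀ x ∈ P, rk (par x) + 1 = rk x ∧
        ((a (pe x) = x ∧ b (pe x) = par x) ∨ (b (pe x) = x ∧ a (pe x) = par x))) :
    Set.InjOn pe P := by
  intro x hx y hy hxy
  obtain ⟨h1, h2⟩ := h x hx
  obtain ⟨h3, h4⟩ := h y hy
  rw [← hxy] at h4
  rcases h2 with ⟨p1, p2⟩ | ⟨p1, p2⟩ <;> rcases h4 with ⟨q1, q2⟩ | ⟨q1, q2⟩
  · rw [← p1, ← q1]
  · exfalso
    have e1 : par x = y := by rw [← p2, q1]
    have e2 : par y = x := by rw [← q2, p1]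
    rw [e1] at h1; rw [e2] at h3; omega
  · exfalso
    have e1 : par x = y := by rw [← p2, q1]
    have e2 : par y = x := by rw [← q2, p1]
    rw [e1] at h1; rw [e2] at h3; omega
  · rw [← p1, ← q1]

end general

variable {S : Type} {X Y : Equiv.Perm S}

theorem adj_iff {s t : S} : adj X Y s t ↔
    ∃ g : S × Bool, (lf g = s ∧ rf X Y g = t) ∨ (rf X Y g = s ∧ lf g = t) := by
  constructor
  · rintro (h | h | h | h)
    · exact ⟨(s, false), Or.inl ⟨rfl, h⟩⟩
    · exact ⟨(t, false), Or.inr ⟨h, rfl⟩⟩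
    · exact ⟨(s, true), Or.inl ⟨rfl, h⟩⟩
    · exact ⟨(t, true), Or.inr ⟨h, rfl⟩⟩
  · rintro ⟨⟨u, b⟩, h⟩
    cases b with
    | false =>
      rcases h with ⟨h1, h2⟩ | ⟨h1, h2⟩
      · left; rw [← h2, ← h1]; rfl
      · right; left; rw [← h1, ← h2]; rfl
    | true =>
      rcases h with ⟨h1, h2⟩ | ⟨h1, h2⟩
      · right; right; left; rw [← h2, ← h1]; rfl
      · right; right; right; rw [← h1, ← h2]; rfl

theorem Pth.toER {U : Set S} {G : Set (S × Bool)}
    (hG : ∀ g, lf g ∈ U → rf X Y g ∈ U → g ∈ G) {s t : S} (h : Pth X Y U s t) :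
    ER lf (rf X Y) G s t := by
  unfold Pth at h
  induction h with
  | refl => exact ER.rfl' _
  | tail _ hbc ih =>
    obtain ⟨hb, hc, hadj⟩ := hbc
    obtain ⟨g, hg⟩ := adj_iff.1 hadj
    refine Relation.ReflTransGen.tail ih ⟨g, ?_, hg⟩
    rcases hg with ⟨h1, h2⟩ | ⟨h1, h2⟩
    · exact hG g (h1 ▸ hb) (h2 ▸ hc)
    · exact hG g (h2 ▸ hc) (h1 ▸ hb)

/-- edges with both sides in `U` -/
def EI (X Y : Equiv.Perm S) (U : Set S) : Set (S × Bool) := {g | lf g ∈ U ∧ rf X Y g ∈ U}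

/-- interior vertices of `U` -/
def VI (X Y : Equiv.Perm S) (U : Set S) : Set (Vt X Y) :=
  {v | ∀ g, At X Y v g → lf g ∈ U ∧ rf X Y g ∈ U}

theorem at_face {v : Vt X Y} {s : S} (h : ∃ g, At X Y v g ∧ (lf g = s ∨ rf X Y g = s)) :
    v = oV X Y s ∨ v = mV X Y s ∨ v = eV X Y s ∨ v = mV X Y (Y s) := by
  obtain ⟨⟨t, b⟩, hat, hs⟩ := h
  cases b with
  | false =>
    rcases hs with hs | hs
    · rw [lf_x] at hs; subst hs
      rcases hat with h | h
      · exact Or.inl h.symm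
      · exact Or.inr (Or.inl h.symm)
    · rw [rf_x] at hs; subst hs
      rcases hat with h | h
      · left; rw [← h, oV_X]; rfl
      · right; right; right; rw [← h, mV_Z]; rfl
  | true =>
    rcases hs with hs | hs
    · rw [lf_x] at hs; subst hs
      rcases hat with h | h
      · exact Or.inr (Or.inr (Or.inl h.symm))
      · exact Or.inr (Or.inr (Or.inr h.symm))
    · rw [rf_y] at hs; subst hs
      rcases hat with h | h
      · right; right; left; rw [← h, eV_Y]; rfl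
      · right; left; rw [← h]; rfl

/-- EULER: a set of squares with connected nonempty complement in a planar closed hypermap. -/
theorem sub_euler [Finite S] (htr : ∀ s t, Pth X Y Set.univ s t)
    (hV : Nat.card S + 2 ≤ Nat.card (Vt X Y)) (U : Set S) (hU : U.Nonempty)
    (hc : Uᶜ.Nonempty) (hcon : Conn X Y Uᶜ) :
    (EI X Y U).ncard + 1 ≤ U.ncard + (VI X Y U).ncard := by
  classical
  obtain ⟨s0, hs0⟩ := hc
  have : Nonempty (S × Bool) := ⟨(s0, false)⟩
  obtain ⟨u0, hu0⟩ := hU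
  -- first search: squares of `Uᶜ` towards `U`
  obtain ⟨rk, dd, par, -, hb⟩ := exists_bfs (a := (lf : S × Bool → S)) (b := rf X Y)
    (G := Set.univ) U Uᶜ (fun x _ =>
      ((htr u0 x).toER (G := Set.univ) (fun _ _ _ => trivial)).lay ⟨0, hu0⟩)
  have hb' : ∀ x ∈ Uᶜ, rk (par x) + 1 = rk x ∧
      ((lf (dd x) = x ∧ rf X Y (dd x) = par x) ∨ (rf X Y (dd x) = x ∧ lf (dd x) = par x)) :=
    fun x hx => (hb x hx hx).2
  have hinj : Set.InjOn dd Uᶜ := bfs_inj hb'
  set D : Set (S × Bool) := dd '' Uᶜ with hD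
  have hDcard : D.ncard = Uᶜ.ncard := hinj.ncard_image
  set Ecl : Set (S × Bool) := (EI X Y U)ᶜ with hEcl
  have memE : ∀ g, (lf g ∈ Uᶜ ∨ rf X Y g ∈ Uᶜ) → g ∈ Ecl := by
    intro g hg hgI
    rcases hg with h | h
    · exact h hgI.1
    · exact h hgI.2
  have hDE : D ⊆ Ecl := by
    rintro _ ⟨x, hx, rfl⟩
    rcases (hb' x hx).2 with h | h
    · exact memE _ (Or.inl (by rw [h.1]; exact hx))
    · exact memE _ (Or.inr (by rw [h.1]; exact hx))
  -- connectivity without the dual tree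
  set CC := ER (en1 X Y) (en2 X Y) (Ecl \ D) with hCC
  obtain ⟨M, hM⟩ : ∃ M, ∀ x, rk x ≤ M := by
    obtain ⟨M, hM⟩ := (Set.finite_range rk).bddAbove
    exact ⟨M, fun x => hM ⟨x, rfl⟩⟩
  have hdd : ∀ k, ∀ x ∈ Uᶜ, M < rk x + k → CC (en1 X Y (dd x)) (en2 X Y (dd x)) := by
    intro k
    induction k with
    | zero => intro x _ h; have := hM x; omega
    | succ k ih =>
      intro x hx hk
      obtain ⟨hr, hsides⟩ := hb' x hx
      have hpx : par x ≠ x := by intro h; rw [h] at hr; omega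
      have := facel x (dd x) (by
          rcases hsides with ⟨h1, h2⟩ | ⟨h1, h2⟩
          · exact Or.inl ⟨h1, h2 ▸ hpx⟩
          · exact Or.inr ⟨h1, h2 ▸ hpx⟩)
        (fun v => CC (en1 X Y (dd x)) v) (by
          intro g' hg' hne
          have hgg : CC (en1 X Y g') (en2 X Y g') := by
            by_cases hgD : g' ∈ D
            · obtain ⟨x', hx', rfl⟩ := hgD
              obtain ⟨hr', hs'⟩ := hb' x' hx'
              have hxx' : x' ≠ x := fun h => hne (by rw [h])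
              have hpar : par x' = x := by
                rcases hs' with ⟨h1, h2⟩ | ⟨h1, h2⟩ <;> rcases hg' with h3 | h3
                · exact absurd (h1.symm.trans h3) hxx'
                · exact h2.symm.trans h3
                · exact h2.symm.trans h3
                · exact absurd (h1.symm.trans h3) hxx'
              exact ih x' hx' (by rw [hpar] at hr'; omega)
            · refine ER.edge ⟨memE g' ?_, hgD⟩
              rcases hg' with h | h
              · exact Or.inl (h ▸ hx)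
              · exact Or.inr (h ▸ hx)
          exact ⟨fun h => h.trans hgg, fun h => h.trans hgg.symm⟩)
      exact this.1 (ER.rfl' _)
  have hedge : ∀ g ∈ Ecl, CC (en1 X Y g) (en2 X Y g) := by
    intro g hg
    by_cases hgD : g ∈ D
    · obtain ⟨x, hx, rfl⟩ := hgD
      exact hdd (M + 1) x hx (by omega)
    · exact ER.edge ⟨hg, hgD⟩
  have hface : ∀ x ∈ Uᶜ, ∀ v, (∃ g, At X Y v g ∧ (lf g = x ∨ rf X Y g = x)) →
      CC (oV X Y x) v := by
    intro x hx v hv
    have c1 : CC (oV X Y x) (mV X Y x) := hedge (x, false) (memE _ (Or.inl hx))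
    have c2 : CC (eV X Y x) (mV X Y (Y x)) := hedge (x, true) (memE _ (Or.inl hx))
    have e1 : oV X Y (X.symm x) = oV X Y x := by
      rw [← oV_X X Y (X.symm x), Equiv.apply_symm_apply]
    have e2 : mV X Y (X.symm x) = mV X Y (Y x) := by
      rw [← mV_Z X Y (X.symm x), Equiv.apply_symm_apply]
    have c3 : CC (oV X Y x) (mV X Y (Y x)) := by
      have := hedge (X.symm x, false) (memE _ (Or.inr (by rw [rf_x, Equiv.apply_symm_apply]; exact hx)))
      rwa [en1_x, en2_x, e1, e2] at this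
    rcases at_face hv with h | h | h | h
    · rw [h]; exact ER.rfl' _
    · rw [h]; exact c1
    · rw [h]; exact c3.trans c2.symm
    · rw [h]; exact c3
  have hRR : ∀ x, Pth X Y Uᶜ s0 x → CC (oV X Y s0) (oV X Y x) := by
    intro x hx
    unfold Pth at hx
    induction hx with
    | refl => exact ER.rfl' _
    | tail _ hbc ih =>
      obtain ⟨hb1, hc1, hadj⟩ := hbc
      obtain ⟨g, hg⟩ := adj_iff.1 hadj
      refine ih.trans ((hface _ hb1 (en1 X Y g) ⟨g, Or.inl rfl, ?_⟩).trans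
        (hface _ hc1 (en1 X Y g) ⟨g, Or.inl rfl, ?_⟩).symm)
      · rcases hg with h | h
        · exact Or.inl h.1
        · exact Or.inr h.1
      · rcases hg with h | h
        · exact Or.inr h.2
        · exact Or.inl h.2
  have hVcl : ∀ v ∈ (VI X Y U)ᶜ, CC (oV X Y s0) v := by
    intro v hv
    have : ∃ g, At X Y v g ∧ ¬ (lf g ∈ U ∧ rf X Y g ∈ U) := by
      by_contra hcon'
      push Not at hcon'
      exact hv (fun g hg => hcon' g hg)
    obtain ⟨g, hg1, hg2⟩ := this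
    by_cases h : lf g ∈ U
    · have h' : rf X Y g ∈ Uᶜ := fun h' => hg2 ⟨h, h'⟩
      exact (hRR _ (hcon s0 hs0 _ h')).trans (hface _ h' v ⟨g, hg1, Or.inr rfl⟩)
    · exact (hRR _ (hcon s0 hs0 _ h)).trans (hface _ h v ⟨g, hg1, Or.inl rfl⟩)
  -- second search: vertices
  obtain ⟨rk2, pe, par2, -, hp⟩ := exists_bfs (a := en1 X Y) (b := en2 X Y)
    (G := Ecl \ D) {oV X Y s0} (VI X Y U)ᶜ (fun v hv => (hVcl v hv).lay ⟨0, rfl⟩)
  have hinj2 : Set.InjOn pe ((VI X Y U)ᶜ \ {oV X Y s0}) := by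
    refine bfs_inj (rk := rk2) (par := par2) (a := en1 X Y) (b := en2 X Y) (fun x hx => ?_)
    exact (hp x hx.1 hx.2).2
  have hle : ((VI X Y U)ᶜ \ {oV X Y s0}).ncard ≤ (Ecl \ D).ncard := by
    rw [← hinj2.ncard_image]
    refine Set.ncard_le_ncard ?_ (Set.toFinite _)
    rintro _ ⟨v, hv, rfl⟩
    exact (hp v hv.1 hv.2).1
  have h1 : (VI X Y U)ᶜ.ncard ≤ ((VI X Y U)ᶜ \ {oV X Y s0}).ncard + 1 := by
    have := Set.ncard_le_ncard (s := (VI X Y U)ᶜ) (t := insert (oV X Y s0)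
      ((VI X Y U)ᶜ \ {oV X Y s0})) (by
        intro v hv
        by_cases h : v = oV X Y s0
        · exact Or.inl h
        · exact Or.inr ⟨hv, h⟩) (Set.toFinite _)
    exact this.trans (Set.ncard_insert_le _ _)
  have h2 : (Ecl \ D).ncard + D.ncard = Ecl.ncard := Set.ncard_sdiff_add_ncard_of_subset hDE
  have h3 : (EI X Y U).ncard + Ecl.ncard = Nat.card (S × Bool) := Set.ncard_add_ncard_compl _
  have h4 : (VI X Y U).ncard + (VI X Y U)ᶜ.ncard = Nat.card (Vt X Y) := Set.ncard_add_ncard_compl _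
  have h5 : U.ncard + Uᶜ.ncard = Nat.card S := Set.ncard_add_ncard_compl _
  have h6 : Nat.card (S × Bool) = 2 * Nat.card S := by
    rw [Nat.card_prod]; simp [mul_comm]
  omega

end Vale.Agent.P201.H
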