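import Vale.Agent.P201.H.Cut

namespace Vale.Agent.P201.H

open Filter Topology

theorem ana (c e : ℝ) (hc : 0 < c) (he : 0 < e) :
    ∃ J0 : ℕ, ∀ J : ℕ, J0 ≤ J → ((J : ℝ) + 1) ^ 4 ≤ c * (1 + e) ^ J ∧
      3 * (4 * (J : ℝ) + 5) ≤ (J : ℝ) ^ 2 := by
  have h1 : (1 : ℝ) < 1 + e := by linarith
  have hpos : (0 : ℝ) < 1 + e := by linarith
  have h2 := tendsto_pow_const_div_const_pow_of_one_lt 4 h1
  have h3 : ∀ᶠ n : ℕ in atTop, (n : ℝ) ^ 4 / (1 + e) ^ n < c / (1 + e) :=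
    h2.eventually (gt_mem_nhds (by positivity))
  obtain ⟨N, hN⟩ := eventually_atTop.1 h3
  refine ⟨N + 14, fun J hJ => ⟨?_, ?_⟩⟩
  · have h4 := hN (J + 1) (by omega)
    have hp : (0 : ℝ) < (1 + e) ^ (J + 1) := by positivity
    rw [div_lt_iff₀ hp] at h4
    push_cast at h4
    have h5 : c / (1 + e) * (1 + e) ^ (J + 1) = c * (1 + e) ^ J := by
      rw [pow_succ]; field_simp
    rw [h5] at h4
    exact h4.le
  · have : (14 : ℝ) ≤ J := by exact_mod_cast (by omega : 14 ≤ J)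
    nlinarith

theorem sqrt_gain {x y : ℝ} (hx : 0 ≤ x) (hy : 0 ≤ y) (h1 : x + y ≤ 5 * x) (h2 : x + y ≤ 5 * y) :
    4 / 3 * Real.sqrt (x + y) ≤ Real.sqrt x + Real.sqrt y := by
  have hs : 0 ≤ Real.sqrt x + Real.sqrt y := by positivity
  have hxy : 2 / 5 * (x + y) ≤ Real.sqrt x * Real.sqrt y := by
    rw [← Real.sqrt_mul hx]
    refine Real.le_sqrt_of_sq_le ?_
    nlinarith [mul_nonneg (sub_nonneg.2 h1) (sub_nonneg.2 h2)]
  have h3 : (4 / 3 * Real.sqrt (x + y)) ^ 2 ≤ (Real.sqrt x + Real.sqrt y) ^ 2 := by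
    have e1 : Real.sqrt (x + y) ^ 2 = x + y := Real.sq_sqrt (by linarith)
    have e2 : Real.sqrt x ^ 2 = x := Real.sq_sqrt hx
    have e3 : Real.sqrt y ^ 2 = y := Real.sq_sqrt hy
    nlinarith
  exact abs_le_of_sq_le_sq' h3 hs |>.2

variable {S : Type} {X Y : Equiv.Perm S}

theorem conn_union {A B : Set S} (hA : Conn X Y A) (hB : Conn X Y B)
    (h : ∃ a ∈ A, ∃ b ∈ B, adj X Y a b) : Conn X Y (A ∪ B) := by
  obtain ⟨a, ha, b, hb, hab⟩ := h
  have hab' : Pth X Y (A ∪ B) a b := Pth.step (Or.inl ha) (Or.inr hb) hab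
  have key : ∀ s ∈ A ∪ B, Pth X Y (A ∪ B) s a := by
    rintro s (hs | hs)
    · exact (hA s hs a ha).mono Set.subset_union_left
    · exact ((hB s hs b hb).mono Set.subset_union_right).trans hab'.symm
  intro s hs t ht
  exact (key s hs).trans (key t ht).symm

theorem bx_split [Finite S] (X : Equiv.Perm S) {U U1 : Set S} (h : U1 ⊆ U) :
    bx X U1 + bx X (U \ U1) ≤ bx X U + {s | s ∈ U ∧ X s ∈ U ∧ ¬ (s ∈ U1 ↔ X s ∈ U1)}.ncard := by
  unfold bx
  rw [← Set.ncard_union_eq ?_ (Set.toFinite _) (Set.toFinite _)]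
  · refine (Set.ncard_le_ncard ?_ (Set.toFinite _)).trans (Set.ncard_union_le _ _)
    rintro s (⟨h1, h2⟩ | ⟨h1, h2⟩)
    · by_cases h3 : X s ∈ U
      · exact Or.inr ⟨h h1, h3, fun h4 => h2 (h4.1 h1)⟩
      · exact Or.inl ⟨h h1, h3⟩
    · by_cases h3 : X s ∈ U
      · refine Or.inr ⟨h1.1, h3, fun h4 => ?_⟩
        by_cases h5 : X s ∈ U1
        · exact h1.2 (h4.2 h5)
        · exact h2 ⟨h3, h5⟩
      · exact Or.inl ⟨h1.1, h3⟩
  · rw [Set.disjoint_left]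
    rintro s ⟨h1, _⟩ ⟨h2, _⟩
    exact h2.2 h1

theorem cross_count [Finite S] (U U1 : Set S) :
    {s | s ∈ U ∧ X s ∈ U ∧ ¬ (s ∈ U1 ↔ X s ∈ U1)}.ncard +
      {s | s ∈ U ∧ Y s ∈ U ∧ ¬ (s ∈ U1 ↔ Y s ∈ U1)}.ncard ≤
      {g : S × Bool | g ∈ EI X Y U ∧ ¬ (lf g ∈ U1 ↔ rf X Y g ∈ U1)}.ncard := by
  have i1 : Function.Injective (fun s : S => (s, false)) := fun a b h => (Prod.mk.inj h).1
  have i2 : Function.Injective (fun s : S => (s, true)) := fun a b h => (Prod.mk.inj h).1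
  rw [← Set.ncard_image_of_injective _ i1,
    ← Set.ncard_image_of_injective {s | s ∈ U ∧ Y s ∈ U ∧ ¬ (s ∈ U1 ↔ Y s ∈ U1)} i2,
    ← Set.ncard_union_eq ?_ (Set.toFinite _) (Set.toFinite _)]
  · refine Set.ncard_le_ncard ?_ (Set.toFinite _)
    rintro _ (⟨s, ⟨h1, h2, h3⟩, rfl⟩ | ⟨s, ⟨h1, h2, h3⟩, rfl⟩)
    · exact ⟨⟨h1, h2⟩, h3⟩
    · exact ⟨⟨h1, h2⟩, h3⟩
  · rw [Set.disjoint_left]
    rintro _ ⟨s, _, rfl⟩ ⟨t, _, h⟩
    simp at h

/-- weighted boundary -/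
noncomputable def bd (X Y : Equiv.Perm S) (W : ℝ) (U : Set S) : ℝ := bx X U + W * bx Y U

theorem bd_split [Finite S] {W : ℝ} (hW : 1 ≤ W) {U U1 : Set S} (h : U1 ⊆ U) (n : ℕ)
    (hn : {g : S × Bool | g ∈ EI X Y U ∧ ¬ (lf g ∈ U1 ↔ rf X Y g ∈ U1)}.ncard ≤ n) :
    bd X Y W U1 + bd X Y W (U \ U1) ≤ bd X Y W U + W * n := by
  have h1 := bx_split X h
  have h2 := bx_split Y h
  have h3 := (cross_count (X := X) (Y := Y) U U1).trans hn
  unfold bd
  set a := {s | s ∈ U ∧ X s ∈ U ∧ ¬ (s ∈ U1 ↔ X s ∈ U1)}.ncard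
  set b := {s | s ∈ U ∧ Y s ∈ U ∧ ¬ (s ∈ U1 ↔ Y s ∈ U1)}.ncard
  have h1' : (bx X U1 : ℝ) + bx X (U \ U1) ≤ bx X U + a := by exact_mod_cast h1
  have h2' : (bx Y U1 : ℝ) + bx Y (U \ U1) ≤ bx Y U + b := by exact_mod_cast h2
  have h3' : (a : ℝ) + b ≤ n := by exact_mod_cast h3
  have ha : (0 : ℝ) ≤ a := Nat.cast_nonneg _
  have hb : (0 : ℝ) ≤ b := Nat.cast_nonneg _
  nlinarith [mul_le_mul_of_nonneg_left h2' (by linarith : (0 : ℝ) ≤ W),
    mul_le_mul_of_nonneg_left h3' (by linarith : (0 : ℝ) ≤ W), mul_nonneg ha (sub_nonneg.2 hW)]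

/-- a part which does not touch the complement of `U` has small boundary -/
theorem bd_small [Finite S] {W : ℝ} (hW : 1 ≤ W) {U U1 V : Set S} (hV : V ⊆ U)
    (hVU : ∀ s ∈ U, ∀ t ∈ U, s ∈ V → t ∉ V → ¬ (s ∈ U1 ↔ t ∈ U1)) (n : ℕ)
    (hna : ¬ ∃ a ∈ V, ∃ b ∈ Uᶜ, adj X Y a b)
    (hn : {g : S × Bool | g ∈ EI X Y U ∧ ¬ (lf g ∈ U1 ↔ rf X Y g ∈ U1)}.ncard ≤ n) :
    bd X Y W V ≤ W * n := by
  have h3 := (cross_count (X := X) (Y := Y) U U1).trans hn
  have h1 : bx X V ≤ {s | s ∈ U ∧ X s ∈ U ∧ ¬ (s ∈ U1 ↔ X s ∈ U1)}.ncard := by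
    refine Set.ncard_le_ncard ?_ (Set.toFinite _)
    rintro s ⟨h1, h2⟩
    have h4 : X s ∈ U := by
      by_contra h4
      exact hna ⟨s, h1, X s, h4, Or.inl rfl⟩
    exact ⟨hV h1, h4, hVU s (hV h1) _ h4 h1 h2⟩
  have h2 : bx Y V ≤ {s | s ∈ U ∧ Y s ∈ U ∧ ¬ (s ∈ U1 ↔ Y s ∈ U1)}.ncard := by
    refine Set.ncard_le_ncard ?_ (Set.toFinite _)
    rintro s ⟨h1, h2⟩
    have h4 : Y s ∈ U := by
      by_contra h4
      exact hna ⟨s, h1, Y s, h4, Or.inr (Or.inr (Or.inl rfl))⟩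
    exact ⟨hV h1, h4, hVU s (hV h1) _ h4 h1 h2⟩
  have h5 : bx X V + bx Y V ≤ n := by omega
  have h6 : (bx X V : ℝ) + bx Y V ≤ n := by exact_mod_cast h5
  have h7 : (0 : ℝ) ≤ bx X V := Nat.cast_nonneg _
  unfold bd
  nlinarith [mul_le_mul_of_nonneg_left h6 (by linarith : (0 : ℝ) ≤ W),
    mul_nonneg h7 (sub_nonneg.2 hW)]

theorem choose_J {a : ℝ} (hapos : 0 < a) (J0 : ℕ) (hJ0a : (J0 : ℝ) ^ 4 ≤ a) :
    ∃ J : ℕ, J0 ≤ J ∧ (J : ℝ) ^ 2 ≤ Real.sqrt a ∧ a < ((J : ℝ) + 1) ^ 4 := by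
  have hJle : (⌊Real.sqrt (Real.sqrt a)⌋₊ : ℝ) ≤ Real.sqrt (Real.sqrt a) :=
    Nat.floor_le (Real.sqrt_nonneg _)
  have hJlt : Real.sqrt (Real.sqrt a) < (⌊Real.sqrt (Real.sqrt a)⌋₊ : ℝ) + 1 :=
    Nat.lt_floor_add_one _
  have hss : Real.sqrt (Real.sqrt a) ^ 4 = a := by
    have e1 : Real.sqrt (Real.sqrt a) ^ 4 = (Real.sqrt (Real.sqrt a) ^ 2) ^ 2 := by ring
    rw [e1, Real.sq_sqrt (Real.sqrt_nonneg _), Real.sq_sqrt hapos.le]
  refine ⟨⌊Real.sqrt (Real.sqrt a)⌋₊, ?_, ?_, ?_⟩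
  · refine Nat.le_floor ?_
    refine Real.le_sqrt_of_sq_le ?_
    refine Real.le_sqrt_of_sq_le ?_
    calc (((J0 : ℝ) ^ 2) ^ 2) = (J0 : ℝ) ^ 4 := by ring
      _ ≤ a := hJ0a
  · have := pow_le_pow_left₀ (Nat.cast_nonneg _) hJle 2
    rwa [Real.sq_sqrt (Real.sqrt_nonneg _)] at this
  · have := pow_lt_pow_left₀ hJlt (Real.sqrt_nonneg _) (by norm_num : (4 : ℕ) ≠ 0)
    rwa [hss] at this

theorem fin_ar {e W a u1 u2 N b b1 b2 : ℝ} (hW0 : 0 < W) (hu1 : 0 ≤ u1) (hu2 : 0 ≤ u2)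
    (hs3 : N ≤ Real.sqrt a / 3) (hsum : u1 + u2 = a * W) (h1 : a * W ≤ 5 * u1)
    (h2 : a * W ≤ 5 * u2) (i1 : e * u1 + Real.sqrt (W * u1) ≤ b1)
    (i2 : e * u2 + Real.sqrt (W * u2) ≤ b2) (hsp : b1 + b2 ≤ b + W * N) :
    e * (a * W) + Real.sqrt (W * (a * W)) ≤ b := by
  have hgain := sqrt_gain (x := W * u1) (y := W * u2) (by positivity)
    (by positivity) (by
      rw [← mul_add, hsum]
      have := mul_le_mul_of_nonneg_left h1 hW0.le
      linarith) (by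
      rw [← mul_add, hsum]
      have := mul_le_mul_of_nonneg_left h2 hW0.le
      linarith)
  rw [← mul_add, hsum] at hgain
  have hsqa : W * Real.sqrt a = Real.sqrt (W * (a * W)) := by
    rw [show W * (a * W) = W ^ 2 * a by ring, Real.sqrt_mul (by positivity),
      Real.sqrt_sq hW0.le]
  have h9 : W * N ≤ Real.sqrt (W * (a * W)) / 3 := by
    rw [← hsqa]
    have := mul_le_mul_of_nonneg_left hs3 hW0.le
    linarith
  have h10 : e * (a * W) = e * u1 + e * u2 := by rw [← hsum]; ring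
  linarith

theorem bad_ar {e W a v N : ℝ} (he : 0 < e) (hW0 : 0 < W) (hapos : 0 < a) (h30 : 30 / e ^ 2 ≤ a)
    (hs3 : N ≤ Real.sqrt a / 3) (h5V : a * W ≤ 5 * v) (h1 : e * v ≤ W * N) : False := by
  have h2 : e * (a * W) ≤ 5 * (W * (Real.sqrt a / 3)) := by
    have h3 : W * N ≤ W * (Real.sqrt a / 3) := mul_le_mul_of_nonneg_left hs3 hW0.le
    have h4 : e * (a * W) ≤ e * (5 * v) := mul_le_mul_of_nonneg_left h5V he.le
    linarith
  have h3 : e * a ≤ 5 / 3 * Real.sqrt a := by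
    have : W * (e * a) ≤ W * (5 / 3 * Real.sqrt a) := by linarith
    exact le_of_mul_le_mul_left this hW0
  have hsa : 0 < Real.sqrt a := Real.sqrt_pos.2 hapos
  have hsq : Real.sqrt a * Real.sqrt a = a := Real.mul_self_sqrt hapos.le
  have h4 : e * Real.sqrt a ≤ 5 / 3 := by
    have : Real.sqrt a * (e * Real.sqrt a) ≤ Real.sqrt a * (5 / 3) := by
      calc Real.sqrt a * (e * Real.sqrt a) = e * (Real.sqrt a * Real.sqrt a) := by ring
        _ = e * a := by rw [hsq]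
        _ ≤ 5 / 3 * Real.sqrt a := h3
        _ = Real.sqrt a * (5 / 3) := by ring
    exact le_of_mul_le_mul_left this hsa
  have h5 : e ^ 2 * a ≤ 25 / 9 := by
    have : (e * Real.sqrt a) * (e * Real.sqrt a) ≤ 5 / 3 * (5 / 3) :=
      mul_le_mul h4 h4 (by positivity) (by norm_num)
    calc e ^ 2 * a = e ^ 2 * (Real.sqrt a * Real.sqrt a) := by rw [hsq]
      _ = (e * Real.sqrt a) * (e * Real.sqrt a) := by ring
      _ ≤ 25 / 9 := by linarith
  have h6 : 30 ≤ e ^ 2 * a := by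
    have := mul_le_mul_of_nonneg_left h30 (by positivity : (0 : ℝ) ≤ e ^ 2)
    have e3 : e ^ 2 * (30 / e ^ 2) = 30 := by field_simp
    linarith
  linarith

theorem compl_left {α : Type} {U U1 : Set α} (hU1 : U1 ⊆ U) : U1ᶜ = (U \ U1) ∪ Uᶜ := by
  ext x
  constructor
  · intro hx
    by_cases hxU : x ∈ U
    · exact Or.inl ⟨hxU, hx⟩
    · exact Or.inr hxU
  · rintro (hx | hx) h
    · exact hx.2 h
    · exact hx (hU1 h)

theorem compl_right {α : Type} (U U1 : Set α) : (U \ U1)ᶜ = U1 ∪ Uᶜ := by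
  ext x
  constructor
  · intro hx
    by_cases hxU : x ∈ U
    · left; by_contra h; exact hx ⟨hxU, h⟩
    · exact Or.inr hxU
  · rintro (hx | hx) h
    · exact h.2 hx
    · exact hx h.1

/-- LOCAL TO GLOBAL. -/
theorem comb (c e1 : ℝ) (hc : 0 < c) (he : 0 < e1) : ∃ K : ℝ, 0 < K ∧
    ∀ (W : ℝ), 1 ≤ W → ∀ (S : Type) [Finite S] (X Y : Equiv.Perm S),
      (∀ s t, Pth X Y Set.univ s t) → Nat.card S + 2 ≤ Nat.card (Vt X Y) →
      ∀ A : Set S,
      (∀ s, (∀ t, Y.SameCycle s t → t ∈ A) → c * W ≤ {t | Y.SameCycle s t}.ncard) →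
      (∀ U ⊆ A, U.Nonempty → Uᶜ.Nonempty → Conn X Y Uᶜ → (U.ncard : ℝ) ≤ K * W →
        e1 * U.ncard ≤ bd X Y W U) →
      ∀ U ⊆ A, Uᶜ.Nonempty → Conn X Y U → Conn X Y Uᶜ → (e1 / 2) * U.ncard ≤ bd X Y W U := by
  set e : ℝ := e1 / 2 with hedef
  have hepos : 0 < e := by positivity
  obtain ⟨J0, hJ0⟩ := ana c e hc hepos
  refine ⟨(J0 : ℝ) ^ 4 + 30 / e ^ 2 + 5, by positivity, ?_⟩
  set K : ℝ := (J0 : ℝ) ^ 4 + 30 / e ^ 2 + 5 with hK
  intro W hW S _ X Y htr hV A hg hloc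
  have hW0 : 0 < W := by linarith
  suffices H : ∀ n : ℕ, ∀ U ⊆ A, U.ncard = n → Uᶜ.Nonempty → Conn X Y U → Conn X Y Uᶜ →
      e * U.ncard ≤ bd X Y W U ∧
      (1 / e ^ 2 * W ≤ U.ncard → e * U.ncard + Real.sqrt (W * U.ncard) ≤ bd X Y W U) by
    intro U hUA hUc h1 h2
    exact (H _ U hUA rfl hUc h1 h2).1
  intro n
  induction n using Nat.strong_induction_on with
  | _ n ih =>
    intro U hUA hUn hUc hconU hconUc
    rcases Set.eq_empty_or_nonempty U with hUe | hUne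
    · subst hUe
      have hb0 : bd X Y W (∅ : Set S) = 0 := by
        unfold bd bx; simp
      constructor
      · rw [hb0]; simp
      · intro h
        rw [Set.ncard_empty] at h
        have : 0 < 1 / e ^ 2 * W := by positivity
        simp only [Nat.cast_zero] at h
        linarith
    have hUpos : (0 : ℝ) < U.ncard := by
      exact_mod_cast (Set.ncard_pos (Set.toFinite _)).2 hUne
    by_cases hsmall : (U.ncard : ℝ) ≤ K * W
    · have h1 := hloc U hUA hUne hUc hconUc hsmall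
      have h2 : e1 = 2 * e := by rw [hedef]; ring
      rw [h2] at h1
      have hmul : 0 < e * U.ncard := by positivity
      refine ⟨by linarith, fun h => ?_⟩
      have h3 : Real.sqrt (W * U.ncard) ≤ e * U.ncard := by
        rw [Real.sqrt_le_left hmul.le]
        have h4 : W ≤ e ^ 2 * U.ncard := by
          have := mul_le_mul_of_nonneg_left h (by positivity : (0 : ℝ) ≤ e ^ 2)
          have e3 : e ^ 2 * (1 / e ^ 2 * W) = W := by field_simp
          linarith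
        nlinarith
      linarith
    · push Not at hsmall
      set a : ℝ := U.ncard / W with ha
      have haW : (U.ncard : ℝ) = a * W := by rw [ha]; field_simp
      have haK : K < a := by rw [ha, lt_div_iff₀ hW0]; exact hsmall
      have hapos : 0 < a := lt_trans (by positivity) haK
      have hJ0a : (J0 : ℝ) ^ 4 ≤ a := by
        have : 0 < 30 / e ^ 2 := by positivity
        linarith
      have h30 : 30 / e ^ 2 ≤ a := by
        have : (0 : ℝ) ≤ (J0 : ℝ) ^ 4 := by positivity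
        linarith
      have h5a : 5 ≤ a := by
        have : (0 : ℝ) ≤ (J0 : ℝ) ^ 4 := by positivity
        have : 0 < 30 / e ^ 2 := by positivity
        linarith
      obtain ⟨J, hJ0J, hJ2, haJ⟩ := choose_J hapos J0 hJ0a
      obtain ⟨hA1, hA2⟩ := hJ0 J hJ0J
      have hUJ : (U.ncard : ℝ) < c * W * (1 + e) ^ J := by
        rw [haW]
        calc a * W < ((J : ℝ) + 1) ^ 4 * W := by nlinarith
          _ ≤ c * (1 + e) ^ J * W := by nlinarith
          _ = c * W * (1 + e) ^ J := by ring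
      have hall := peel htr U hUc hconUc W e (c * W) hepos.le
        (fun C hCU hne _ h2 h3 => by
          have hlt : C.ncard < n := by
            rw [← hUn]
            exact Set.ncard_lt_ncard (lt_of_le_of_ne hCU hne) (Set.toFinite _)
          exact (ih _ hlt C (hCU.trans hUA) rfl (hUc.mono (Set.compl_subset_compl.2 hCU)) h2 h3).1)
        (fun s hs => hg s (fun t ht => hUA (hs t ht))) J hUJ
      have hlay := all_lay J hall
      have h5U : 5 ≤ U.ncard := by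
        have : (5 : ℝ) ≤ U.ncard := by rw [haW]; nlinarith
        exact_mod_cast this
      obtain ⟨U1, hU1, hc1, hc2, hb1, hb2, hcr⟩ := cut htr hV U (by omega) hUc hconUc hconU
        (2 * J + 2) hlay
      set U2 := U \ U1 with hU2
      have hU2U : U2 ⊆ U := Set.sdiff_subset
      have hsum : U2.ncard + U1.ncard = U.ncard := Set.ncard_sdiff_add_ncard_of_subset hU1
      have hp1 : 1 ≤ U1.ncard := by omega
      have hp2 : 1 ≤ U2.ncard := by omega
      have hN : (((2 * (2 * J + 2) + 1 : ℕ)) : ℝ) = 4 * J + 5 := by push_cast; ring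
      have hs3 : 4 * (J : ℝ) + 5 ≤ Real.sqrt a / 3 := by linarith
      have h5x1 : (U.ncard : ℝ) ≤ 5 * U1.ncard := by exact_mod_cast (by omega : U.ncard ≤ 5 * U1.ncard)
      have h5x2 : (U.ncard : ℝ) ≤ 5 * U2.ncard := by exact_mod_cast (by omega : U.ncard ≤ 5 * U2.ncard)
      have hsumR : (U1.ncard : ℝ) + U2.ncard = U.ncard := by
        have : U1.ncard + U2.ncard = U.ncard := by omega
        exact_mod_cast this
      -- the untouched part is impossible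
      have bad : ∀ V : Set S, V ⊆ U → V.ncard < n → (U.ncard : ℝ) ≤ 5 * V.ncard →
          Conn X Y V → Conn X Y Vᶜ → bd X Y W V ≤ W * ((2 * (2 * J + 2) + 1 : ℕ) : ℝ) → False := by
        intro V hVU hlt h5V hcV hcVc hbV
        have h1 := (ih _ hlt V (hVU.trans hUA) rfl (hUc.mono (Set.compl_subset_compl.2 hVU))
          hcV hcVc).1
        rw [hN] at hbV
        rw [haW] at h5V
        exact bad_ar hepos hW0 hapos h30 hs3 h5V (h1.trans hbV)
      have hcompl1 : U1ᶜ = U2 ∪ Uᶜ := compl_left hU1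
      have hcompl2 : U2ᶜ = U1 ∪ Uᶜ := compl_right U U1
      obtain ⟨x0, hx0, y0, hy0, hxy0⟩ := exists_cross htr hUne hUc
      have t1 : ∃ a ∈ U1, ∃ b ∈ Uᶜ, adj X Y a b := by
        by_contra hna
        have hx2 : x0 ∈ U2 := ⟨hx0, fun h => hna ⟨x0, h, y0, hy0, hxy0⟩⟩
        refine bad U1 hU1 (by omega) h5x1 hc1 ?_ (bd_small hW hU1 ?_ _ hna hcr)
        · rw [hcompl1]; exact conn_union hc2 hconUc ⟨x0, hx2, y0, hy0, hxy0⟩
        · intro s _ t _ hs ht hst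
          exact ht (hst.1 hs)
      have t2 : ∃ a ∈ U2, ∃ b ∈ Uᶜ, adj X Y a b := by
        by_contra hna
        have hx1 : x0 ∈ U1 := by
          by_contra h
          exact hna ⟨x0, ⟨hx0, h⟩, y0, hy0, hxy0⟩
        refine bad U2 hU2U (by omega) h5x2 hc2 ?_ (bd_small hW hU2U ?_ _ hna hcr)
        · rw [hcompl2]; exact conn_union hc1 hconUc ⟨x0, hx1, y0, hy0, hxy0⟩
        · intro s _ t ht hs ht' hst
          have : t ∈ U1 := by
            by_contra h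
            exact ht' ⟨ht, h⟩
          exact hs.2 (hst.2 this)
      have hc1c : Conn X Y U1ᶜ := by rw [hcompl1]; exact conn_union hc2 hconUc t2
      have hc2c : Conn X Y U2ᶜ := by rw [hcompl2]; exact conn_union hc1 hconUc t1
      have hk0 : 5 * (1 / e ^ 2 * W) ≤ U.ncard := by
        rw [haW]
        have : 5 * (1 / e ^ 2) ≤ a := by
          have e3 : 30 / e ^ 2 = 30 * (1 / e ^ 2) := by ring
          have : 0 < 1 / e ^ 2 := by positivity
          linarith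
        nlinarith
      have i1 := (ih _ (by omega) U1 (hU1.trans hUA) rfl
        (hUc.mono (Set.compl_subset_compl.2 hU1)) hc1 hc1c).2 (by linarith)
      have i2 := (ih _ (by omega) U2 (hU2U.trans hUA) rfl
        (hUc.mono (Set.compl_subset_compl.2 hU2U)) hc2 hc2c).2 (by linarith)
      have hsp := bd_split (X := X) (Y := Y) hW hU1 _ hcr
      rw [hN] at hsp
      have hfin : e * U.ncard + Real.sqrt (W * U.ncard) ≤ bd X Y W U := by
        rw [haW]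
        exact fin_ar hW0 (Nat.cast_nonneg _) (Nat.cast_nonneg _) hs3 (hsumR.trans haW)
          (haW ▸ h5x1) (haW ▸ h5x2) i1 i2 hsp
      have hs0 : 0 ≤ Real.sqrt (W * U.ncard) := Real.sqrt_nonneg _
      exact ⟨by linarith, fun _ => hfin⟩

end Vale.Agent.P201.H
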