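import Vale.Agent.P201.H.Peel

namespace Vale.Agent.P201.H

theorem ncard_cover {α : Type} [Finite α] (A : Set α) (f : α) (Ch : Set α) (B : α → Set α) (b : ℕ)
    (hA : ∀ x ∈ A, x = f ∨ ∃ c ∈ Ch, x ∈ B c) (hB : ∀ c ∈ Ch, (B c).ncard ≤ b) :
    A.ncard ≤ 1 + Ch.ncard * b := by
  classical
  have := Fintype.ofFinite α
  have h1 : A.toFinset ⊆ insert f (Ch.toFinset.biUnion (fun c => (B c).toFinset)) := by
    intro x hx
    rw [Set.mem_toFinset] at hx
    rw [Finset.mem_insert, Finset.mem_biUnion]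
    rcases hA x hx with h | ⟨c, hc, hxc⟩
    · exact Or.inl h
    · exact Or.inr ⟨c, by simpa using hc, by simpa using hxc⟩
  have h2 := (Finset.card_le_card h1).trans (Finset.card_insert_le _ _)
  have h3 : (Ch.toFinset.biUnion (fun c => (B c).toFinset)).card ≤ Ch.toFinset.card * b := by
    refine Finset.card_biUnion_le_card_mul _ _ _ (fun c hc => ?_)
    have := hB c (by simpa using hc)
    rwa [Set.ncard_eq_toFinset_card'] at this
  rw [Set.ncard_eq_toFinset_card', Set.ncard_eq_toFinset_card' Ch]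
  omega

variable {S : Type} {X Y : Equiv.Perm S}

/-- edges at a square -/
theorem face_edges {g : S × Bool} {s : S} (h : lf g = s ∨ rf X Y g = s) :
    g = (s, false) ∨ g = (X.symm s, false) ∨ g = (s, true) ∨ g = (Y.symm s, true) := by
  obtain ⟨t, b⟩ := g
  cases b with
  | false =>
    rcases h with h | h
    · left; rw [lf_x] at h; rw [h]
    · right; left; rw [rf_x] at h; rw [← h, Equiv.symm_apply_apply]
  | true =>
    rcases h with h | h
    · right; right; left; rw [lf_x] at h; rw [h]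
    · right; right; right; rw [rf_y] at h; rw [← h, Equiv.symm_apply_apply]

/-- CUT: a connected `U` with connected complement and all vertices within distance `m` from the
non-interior vertices can be cut in two connected parts with few crossing edges. -/
theorem cut [Finite S] (htr : ∀ s t, Pth X Y Set.univ s t)
    (hV : Nat.card S + 2 ≤ Nat.card (Vt X Y)) (U : Set S) (h2 : 2 ≤ U.ncard)
    (hc : Uᶜ.Nonempty) (hcon : Conn X Y Uᶜ) (hU : Conn X Y U) (m : ℕ)
    (hm : ∀ v, v ∈ lay (en1 X Y) (en2 X Y) Set.univ (VI X Y U)ᶜ m) :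
    ∃ U1 ⊆ U, Conn X Y U1 ∧ Conn X Y (U \ U1) ∧ U.ncard ≤ 4 * U1.ncard + 1 ∧
      U.ncard ≤ 4 * (U \ U1).ncard + 1 ∧
      {g : S × Bool | g ∈ EI X Y U ∧ ¬ (lf g ∈ U1 ↔ rf X Y g ∈ U1)}.ncard ≤ 2 * m + 1 := by
  classical
  have hUne : U.Nonempty := by
    rw [← Set.ncard_pos (Set.toFinite _)]; omega
  obtain ⟨r0, hr0⟩ := id hUne
  have : Nonempty (S × Bool) := ⟨(r0, false)⟩
  -- primal tree
  obtain ⟨rk, pe, par, hrk, hp⟩ := exists_bfs (a := en1 X Y) (b := en2 X Y)
    (G := Set.univ) (VI X Y U)ᶜ (VI X Y U) (fun v _ => ⟨m, hm v⟩)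
  have hp' : ∀ v ∈ VI X Y U, rk (par v) + 1 = rk v ∧
      ((en1 X Y (pe v) = v ∧ en2 X Y (pe v) = par v) ∨
        (en2 X Y (pe v) = v ∧ en1 X Y (pe v) = par v)) :=
    fun v hv => (hp v hv (fun h => h hv)).2
  have hrkm : ∀ v, rk v ≤ m := fun v => hrk v m (hm v)
  have hat : ∀ v ∈ VI X Y U, At X Y v (pe v) := by
    intro v hv
    rcases (hp' v hv).2 with h | h
    · exact Or.inl h.1
    · exact Or.inr h.1
  have hpar : ∀ v w, w ∈ VI X Y U → At X Y v (pe w) → v ≠ w → par w = v := by
    intro v w hw hv hne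
    rcases (hp' w hw).2 with ⟨h1, h3⟩ | ⟨h1, h3⟩ <;> rcases hv with h4 | h4
    · exact absurd (h4.symm.trans h1) hne
    · exact h3.symm.trans h4
    · exact h3.symm.trans h4
    · exact absurd (h4.symm.trans h1) hne
  have hinj : Set.InjOn pe (VI X Y U) := bfs_inj hp'
  set Te : Set (S × Bool) := pe '' (VI X Y U) with hTe
  have hTeI : Te ⊆ EI X Y U := by
    rintro _ ⟨v, hv, rfl⟩
    exact hv _ (hat v hv)
  have hTecard : Te.ncard = (VI X Y U).ncard := hinj.ncard_image
  set NT : Set (S × Bool) := EI X Y U \ Te with hNT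
  have hNTcard : NT.ncard + 1 ≤ U.ncard := by
    have h3 := sub_euler htr hV U hUne hc hcon
    have h4 : NT.ncard + Te.ncard = (EI X Y U).ncard := Set.ncard_sdiff_add_ncard_of_subset hTeI
    omega
  -- star argument, with a property preserved by all other edges
  have starT : ∀ (χ : S → Prop) (Q : Vt X Y → Prop),
      (∀ g ∈ NT, ∀ v, At X Y v g → Q v → (χ (lf g) ↔ χ (rf X Y g))) →
      (∀ w ∈ VI X Y U, Q (par w) → Q w) →
      ∀ k, ∀ v ∈ VI X Y U, Q v → m < rk v + k → (χ (lf (pe v)) ↔ χ (rf X Y (pe v))) := by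
    intro χ Q hN hQ k
    induction k with
    | zero => intro v _ _ h; have := hrkm v; omega
    | succ k ih =>
      intro v hv hQv hk
      refine star v (pe v) (hat v hv) χ (fun g' hg' hne => ?_)
      by_cases hgT : g' ∈ Te
      · obtain ⟨w, hw, rfl⟩ := hgT
        have hvw : v ≠ w := fun h => hne (by rw [h])
        have hpw := hpar v w hw hg' hvw
        have h5 := (hp' w hw).1
        rw [hpw] at h5
        exact ih w hw (hQ w hw (by rw [hpw]; exact hQv)) (by omega)
      · exact hN g' ⟨hv g' hg', hgT⟩ v hg' hQv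
  -- dual connectivity without the tree
  have hNedge : ∀ g ∈ EI X Y U, ER lf (rf X Y) NT (lf g) (rf X Y g) := by
    intro g hg
    by_cases hgT : g ∈ Te
    · obtain ⟨v, hv, rfl⟩ := hgT
      have := starT (fun s => ER lf (rf X Y) NT (lf (pe v)) s) (fun _ => True)
        (fun g hg _ _ _ => ⟨fun h => h.trans (ER.edge hg), fun h => h.trans (ER.edge hg).symm⟩)
        (fun _ _ _ => trivial) (m + 1) v hv trivial (by omega)
      exact this.1 (ER.rfl' _)
    · exact ER.edge ⟨hg, hgT⟩
  have hNconn : ∀ s ∈ U, ∀ t, Pth X Y U s t → ER lf (rf X Y) NT s t := by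
    intro s _ t hst
    unfold Pth at hst
    induction hst with
    | refl => exact ER.rfl' _
    | tail _ hbc ih =>
      obtain ⟨hb1, hc1, hadj⟩ := hbc
      obtain ⟨g, hg⟩ := adj_iff.1 hadj
      refine ih.trans ?_
      rcases hg with ⟨h1, h3⟩ | ⟨h1, h3⟩
      · rw [← h1, ← h3]; exact hNedge g ⟨h1 ▸ hb1, h3 ▸ hc1⟩
      · rw [← h1, ← h3]; exact (hNedge g ⟨h3 ▸ hc1, h1 ▸ hb1⟩).symm
  -- the dual tree
  obtain ⟨rkF, dd, parF, -, hd⟩ := exists_bfs (a := (lf : S × Bool → S)) (b := rf X Y)
    (G := NT) {r0} U (fun t ht => (hNconn r0 hr0 t (hU r0 hr0 t ht)).lay ⟨0, rfl⟩)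
  have hd1 : ∀ x ∈ U \ {r0}, rkF (parF x) + 1 = rkF x ∧
      ((lf (dd x) = x ∧ rf X Y (dd x) = parF x) ∨ (rf X Y (dd x) = x ∧ lf (dd x) = parF x)) :=
    fun x hx => (hd x hx.1 hx.2).2
  have hddNT : ∀ x ∈ U \ {r0}, dd x ∈ NT := fun x hx => (hd x hx.1 hx.2).1
  have hinjd : Set.InjOn dd (U \ {r0}) := bfs_inj hd1
  have hparU : ∀ x ∈ U \ {r0}, parF x ∈ U := by
    intro x hx
    have h3 := (hddNT x hx).1
    rcases (hd1 x hx).2 with h | h
    · rw [← h.2]; exact h3.2
    · rw [← h.2]; exact h3.1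
  have hadjF : ∀ x ∈ U \ {r0}, adj X Y x (parF x) := by
    intro x hx
    exact adj_iff.2 ⟨dd x, (hd1 x hx).2⟩
  have himg : dd '' (U \ {r0}) = NT := by
    refine Set.eq_of_subset_of_ncard_le ?_ ?_ (Set.toFinite _)
    · rintro _ ⟨x, hx, rfl⟩; exact hddNT x hx
    · rw [hinjd.ncard_image]
      have h3 := Set.ncard_sdiff_singleton_add_one hr0 (Set.toFinite _)
      omega
  -- ancestors
  set σ : S → S → Prop := fun a b => a ∈ U \ {r0} ∧ parF a = b with hσ
  let sub : S → Set S := fun f => {g | g ∈ U ∧ Relation.ReflTransGen σ g f}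
  have hsubU : ∀ f, sub f ⊆ U := fun f x hx => hx.1
  have hself : ∀ f ∈ U, f ∈ sub f := fun f hf => ⟨hf, Relation.ReflTransGen.refl⟩
  have hstep : ∀ f, ∀ x ∈ U \ {r0}, x ≠ f → (x ∈ sub f ↔ parF x ∈ sub f) := by
    intro f x hx hxf
    constructor
    · rintro ⟨_, h⟩
      rcases Relation.ReflTransGen.cases_head h with h | ⟨y, hy, h⟩
      · exact absurd h hxf
      · obtain ⟨_, hy2⟩ := hy
        rw [hy2]; exact ⟨hy2 ▸ hparU x hx, h⟩
    · rintro ⟨_, h⟩
      exact ⟨hx.1, Relation.ReflTransGen.head ⟨hx, rfl⟩ h⟩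
  have hrank : ∀ g f, Relation.ReflTransGen σ g f → rkF f ≤ rkF g := by
    intro g f h
    induction h with
    | refl => exact le_rfl
    | tail _ hbc ih =>
      obtain ⟨h3, h4⟩ := hbc
      have := (hd1 _ h3).1
      rw [h4] at this
      omega
  have hroot : ∀ n, ∀ x ∈ U, rkF x ≤ n → Relation.ReflTransGen σ x r0 := by
    intro n
    induction n with
    | zero =>
      intro x hx hn
      by_cases h : x = r0
      · rw [h]
      · have := (hd1 x ⟨hx, h⟩).1; omega
    | succ n ih =>
      intro x hx hn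
      by_cases h : x = r0
      · rw [h]
      · have h3 := (hd1 x ⟨hx, h⟩).1
        exact Relation.ReflTransGen.head ⟨⟨hx, h⟩, rfl⟩ (ih _ (hparU x ⟨hx, h⟩) (by omega))
  -- minimal large subtree
  obtain ⟨f, ⟨hfU, hfP⟩, hmin⟩ := Set.exists_min_image
    {f | f ∈ U ∧ U.ncard ≤ 4 * (sub f).ncard + 1} (fun f => (sub f).ncard) (Set.toFinite _)
    ⟨r0, hr0, by
      have : sub r0 = U := Set.Subset.antisymm (hsubU r0) (fun x hx => ⟨hx, hroot _ x hx le_rfl⟩)
      rw [this]; omega⟩
  set Ch : Set S := {c | c ∈ U \ {r0} ∧ parF c = f} with hCh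
  have hchild : ∀ c ∈ Ch, 4 * (sub c).ncard + 2 ≤ U.ncard := by
    intro c hc'
    by_contra hcon'
    have hcP : c ∈ {f | f ∈ U ∧ U.ncard ≤ 4 * (sub f).ncard + 1} := ⟨hc'.1.1, by omega⟩
    have h3 : (sub f).ncard ≤ (sub c).ncard := hmin c hcP
    have h4 : sub c ⊂ sub f := by
      refine ⟨fun x hx => ⟨hx.1, hx.2.tail ⟨hc'.1, hc'.2⟩⟩, fun hss => ?_⟩
      have h5 := (hss (hself f hfU)).2
      have h6 := hrank _ _ h5
      have h7 := (hd1 c hc'.1).1
      rw [hc'.2] at h7
      omega
    have h5 := Set.ncard_lt_ncard h4 (Set.toFinite _)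
    omega
  have hcover : (sub f).ncard ≤ 1 + Ch.ncard * ((U.ncard - 2) / 4) := by
    refine ncard_cover (sub f) f Ch sub _ (fun x hx => ?_) (fun c hc' => ?_)
    · rcases Relation.ReflTransGen.cases_tail hx.2 with h | ⟨y, hy, h⟩
      · exact Or.inl h.symm
      · exact Or.inr ⟨y, h, hx.1, hy⟩
    · have := hchild c hc'
      omega
  have hfour : ∀ g : S × Bool, (lf g = f ∨ rf X Y g = f) →
      g ∈ ({(f, false), (X.symm f, false), (f, true), (Y.symm f, true)} : Set (S × Bool)) :=
    fun g hg => by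
      rcases face_edges hg with h | h | h | h <;> simp [h]
  have h4card : ({(f, false), (X.symm f, false), (f, true), (Y.symm f, true)} :
      Set (S × Bool)).ncard ≤ 4 := by
    refine (Set.ncard_insert_le _ _).trans ?_
    refine Nat.succ_le_succ ((Set.ncard_insert_le _ _).trans ?_)
    refine Nat.succ_le_succ ((Set.ncard_insert_le _ _).trans ?_)
    rw [Set.ncard_singleton]
  have hChEdge : ∀ c ∈ Ch, lf (dd c) = f ∨ rf X Y (dd c) = f := by
    intro c hc'
    rcases (hd1 c hc'.1).2 with h | h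
    · exact Or.inr (h.2.trans hc'.2)
    · exact Or.inl (h.2.trans hc'.2)
  have hChinj : Set.InjOn dd Ch := hinjd.mono (fun c hc' => hc'.1)
  have hfr : f ≠ r0 := by
    intro hfr
    have h3 : Ch.ncard ≤ 4 := by
      rw [← hChinj.ncard_image]
      refine (Set.ncard_le_ncard ?_ (Set.toFinite _)).trans h4card
      rintro _ ⟨c, hc', rfl⟩
      exact hfour _ (hChEdge c hc')
    have h5 : sub f = U := Set.Subset.antisymm (hsubU f)
      (fun x hx => ⟨hx, hfr ▸ hroot _ x hx le_rfl⟩)
    rw [h5] at hcover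
    have h6 : Ch.ncard * ((U.ncard - 2) / 4) ≤ 4 * ((U.ncard - 2) / 4) :=
      Nat.mul_le_mul_right _ h3
    omega
  have hfU' : f ∈ U \ {r0} := ⟨hfU, hfr⟩
  have hCh3 : Ch.ncard ≤ 3 := by
    have h3 : dd f ∉ dd '' Ch := by
      rintro ⟨c, hc', hcf⟩
      have := hinjd hc'.1 hfU' hcf
      have h7 := (hd1 c hc'.1).1
      rw [hc'.2, this] at h7
      omega
    have h4 : (insert (dd f) (dd '' Ch)).ncard ≤ 4 := by
      refine (Set.ncard_le_ncard ?_ (Set.toFinite _)).trans h4card
      intro g hg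
      rcases hg with rfl | ⟨c, hc', rfl⟩
      · refine hfour _ ?_
        rcases (hd1 f hfU').2 with h | h
        · exact Or.inl h.1
        · exact Or.inr h.1
      · exact hfour _ (hChEdge c hc')
    rw [Set.ncard_insert_of_notMem h3 (Set.toFinite _), hChinj.ncard_image] at h4
    omega
  have hupper : 4 * (sub f).ncard + 2 ≤ 3 * U.ncard := by
    have h6 : Ch.ncard * ((U.ncard - 2) / 4) ≤ 3 * ((U.ncard - 2) / 4) :=
      Nat.mul_le_mul_right _ hCh3
    omega
  have hdiff : (U \ sub f).ncard + (sub f).ncard = U.ncard :=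
    Set.ncard_sdiff_add_ncard_of_subset (hsubU f)
  refine ⟨sub f, hsubU f, ?_, ?_, hfP, by omega, ?_⟩
  · -- the subtree is connected
    have key : ∀ x, Relation.ReflTransGen σ x f → x ∈ U → Pth X Y (sub f) x f := by
      intro x hx
      induction hx using Relation.ReflTransGen.head_induction_on with
      | refl => intro _; exact Pth.refl _
      | @head a b hab hbf ih =>
        intro ha
        obtain ⟨ha1, ha2⟩ := hab
        subst ha2
        have hpU := hparU a ha1
        have m1 : a ∈ sub f := ⟨ha, Relation.ReflTransGen.head ⟨ha1, rfl⟩ hbf⟩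
        have m2 : parF a ∈ sub f := ⟨hpU, hbf⟩
        exact (Pth.step m1 m2 (hadjF a ha1)).trans (ih hpU)
    intro a ha b hb
    exact (key a ha.2 ha.1).trans (key b hb.2 hb.1).symm
  · -- the rest is connected
    have hr0n : r0 ∉ sub f := by
      rintro ⟨_, h⟩
      rcases Relation.ReflTransGen.cases_head h with h | ⟨y, hy, h⟩
      · exact hfr h.symm
      · exact hy.1.2 rfl
    have key : ∀ n, ∀ x ∈ U \ sub f, rkF x ≤ n → Pth X Y (U \ sub f) x r0 := by
      intro n
      induction n with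
      | zero =>
        intro x hx hn
        by_cases h : x = r0
        · rw [h]; exact Pth.refl _
        · have := (hd1 x ⟨hx.1, h⟩).1; omega
      | succ n ih =>
        intro x hx hn
        by_cases h : x = r0
        · rw [h]; exact Pth.refl _
        · have hx' : x ∈ U \ {r0} := ⟨hx.1, h⟩
          have h3 := (hd1 x hx').1
          have hxf : x ≠ f := fun h => hx.2 (h ▸ hself f hfU)
          have hpx : parF x ∈ U \ sub f := ⟨hparU x hx', fun h => hx.2 ((hstep f x hx' hxf).2 h)⟩
          exact (Pth.step hx hpx (hadjF x hx')).trans (ih _ hpx (by omega))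
    intro a ha b hb
    exact (key _ a ha le_rfl).trans (key _ b hb le_rfl).symm
  · -- crossing edges
    set τ : Vt X Y → Vt X Y → Prop := fun v w => v ∈ VI X Y U ∧ par v = w with hτ
    have hcr : ∀ v ∈ VI X Y U, ¬ (lf (pe v) ∈ sub f ↔ rf X Y (pe v) ∈ sub f) →
        Relation.ReflTransGen τ (en1 X Y (dd f)) v ∨
          Relation.ReflTransGen τ (en2 X Y (dd f)) v := by
      intro v hv hcrv
      by_contra hno
      refine hcrv (starT (fun s => s ∈ sub f) (fun v => ¬ (Relation.ReflTransGen τ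
        (en1 X Y (dd f)) v ∨ Relation.ReflTransGen τ (en2 X Y (dd f)) v)) ?_ ?_ (m + 1) v hv hno
        (by omega))
      · intro g hg w hw hQ
        rw [← himg] at hg
        obtain ⟨x, hx, rfl⟩ := hg
        have hxf : x ≠ f := by
          rintro rfl
          apply hQ
          rcases hw with h | h
          · left; rw [h]
          · right; rw [h]
        have h3 := hstep f x hx hxf
        rcases (hd1 x hx).2 with ⟨h4, h5⟩ | ⟨h4, h5⟩
        · rw [h4, h5]; exact h3
        · rw [h4, h5]; exact h3.symm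
      · intro w hw hQ hw'
        apply hQ
        rcases hw' with h | h
        · exact Or.inl (h.tail ⟨hw, rfl⟩)
        · exact Or.inr (h.tail ⟨hw, rfl⟩)
    have hcount : ∀ v0, {v | v ∈ VI X Y U ∧ Relation.ReflTransGen τ v0 v}.ncard ≤ m := by
      intro v0
      have hru : Relator.RightUnique τ := fun a b c h1 h3 => h1.2.symm.trans h3.2
      have hlt : ∀ v w, Relation.ReflTransGen τ v w → v = w ∨ rk w < rk v := by
        intro v w h
        induction h with
        | refl => exact Or.inl rfl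
        | @tail b c _ hbc ih =>
          right
          have h3 := (hp' b hbc.1).1
          rw [hbc.2] at h3
          rcases ih with h | h
          · rw [h]; omega
          · omega
      have hIcc : (Set.Icc 1 m).ncard = m := by
        rw [Set.ncard_eq_toFinset_card']; simp
      rw [← hIcc]
      refine Set.ncard_le_ncard_of_injOn rk (fun v hv => ?_) ?_ (Set.toFinite _)
      · have := (hp' v hv.1).1
        exact ⟨by omega, hrkm v⟩
      · intro v hv w hw hvw
        rcases Relation.ReflTransGen.total_of_right_unique hru hv.2 hw.2 with h | h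
        · rcases hlt _ _ h with h' | h'
          · exact h'
          · omega
        · rcases hlt _ _ h with h' | h'
          · exact h'.symm
          · omega
    have hsubset : {g : S × Bool | g ∈ EI X Y U ∧ ¬ (lf g ∈ sub f ↔ rf X Y g ∈ sub f)} ⊆
        insert (dd f) (pe '' {v | v ∈ VI X Y U ∧ Relation.ReflTransGen τ (en1 X Y (dd f)) v} ∪
          pe '' {v | v ∈ VI X Y U ∧ Relation.ReflTransGen τ (en2 X Y (dd f)) v}) := by
      rintro g ⟨hgI, hgc⟩
      by_cases hgT : g ∈ Te
      · obtain ⟨v, hv, rfl⟩ := hgT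
        rcases hcr v hv hgc with h | h
        · exact Or.inr (Or.inl ⟨v, ⟨hv, h⟩, rfl⟩)
        · exact Or.inr (Or.inr ⟨v, ⟨hv, h⟩, rfl⟩)
      · have hgN : g ∈ NT := ⟨hgI, hgT⟩
        rw [← himg] at hgN
        obtain ⟨x, hx, rfl⟩ := hgN
        by_cases hxf : x = f
        · rw [hxf]; exact Or.inl rfl
        · exfalso
          apply hgc
          have h3 := hstep f x hx hxf
          rcases (hd1 x hx).2 with ⟨h4, h5⟩ | ⟨h4, h5⟩
          · rw [h4, h5]; exact h3
          · rw [h4, h5]; exact h3.symm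
    refine (Set.ncard_le_ncard hsubset (Set.toFinite _)).trans ?_
    refine (Set.ncard_insert_le _ _).trans ?_
    have h3 := Set.ncard_union_le
      (pe '' {v | v ∈ VI X Y U ∧ Relation.ReflTransGen τ (en1 X Y (dd f)) v})
      (pe '' {v | v ∈ VI X Y U ∧ Relation.ReflTransGen τ (en2 X Y (dd f)) v})
    have h4 := Set.ncard_image_le (f := pe) (Set.toFinite
      {v | v ∈ VI X Y U ∧ Relation.ReflTransGen τ (en1 X Y (dd f)) v})
    have h5 := Set.ncard_image_le (f := pe) (Set.toFinite
      {v | v ∈ VI X Y U ∧ Relation.ReflTransGen τ (en2 X Y (dd f)) v})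
    have h6 := hcount (en1 X Y (dd f))
    have h7 := hcount (en2 X Y (dd f))
    omega

end Vale.Agent.P201.H
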