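import Vale.Agent.P201.H.Bfs

namespace Vale.Agent.P201.H

variable {S : Type} {X Y : Equiv.Perm S}

/-- a crossing from `U` to its complement -/
theorem exists_cross (htr : ∀ s t, Pth X Y Set.univ s t) {U : Set S} (hU : U.Nonempty)
    (hc : Uᶜ.Nonempty) : ∃ s ∈ U, ∃ t ∈ Uᶜ, adj X Y s t := by
  obtain ⟨s0, hs0⟩ := hU
  obtain ⟨t0, ht0⟩ := hc
  have key : ∀ t, Pth X Y Set.univ s0 t → t ∈ U ∨ ∃ s ∈ U, ∃ t ∈ Uᶜ, adj X Y s t := by
    intro t ht
    unfold Pth at ht
    induction ht with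
    | refl => exact Or.inl hs0
    | @tail b c _ hbc ih =>
      rcases ih with h | h
      · by_cases hc' : c ∈ U
        · exact Or.inl hc'
        · exact Or.inr ⟨b, h, c, hc', hbc.2.2⟩
      · exact Or.inr h
  rcases key t0 (htr s0 t0) with h | h
  · exact absurd h ht0
  · exact h

/-- path along a cycle of `Y` -/
theorem Pth.cyc [Finite S] {V : Set S} {s t : S} (hV : ∀ u, Y.SameCycle s u → u ∈ V)
    (h : Y.SameCycle s t) : Pth X Y V s t := by
  obtain ⟨n, rfl⟩ := h.exists_nat_pow_eq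
  have : ∀ n : ℕ, Pth X Y V s ((Y ^ n) s) := by
    intro n
    induction n with
    | zero => exact Pth.refl _
    | succ n ih =>
      refine ih.trans (Pth.step (hV _ ⟨(n : ℤ), by simp⟩) (hV _ ⟨((n + 1 : ℕ) : ℤ), ?_⟩) ?_)
      · rw [zpow_natCast]
      · right; right; left
        rw [pow_succ']; rfl
  exact this n

/-- squares at fan distance at most `j` from the complement of `U` -/
def DD (X Y : Equiv.Perm S) (U : Set S) : ℕ → Set S
  | 0 => {s | ∃ t, Y.SameCycle s t ∧ t ∉ U}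
  | j + 1 => DD X Y U j ∪ {s | ∃ t, Y.SameCycle s t ∧ (X t ∈ DD X Y U j ∨ X.symm t ∈ DD X Y U j)}

theorem DD_mono {U : Set S} {i j : ℕ} (h : i ≤ j) : DD X Y U i ⊆ DD X Y U j := by
  induction h with
  | refl => exact le_rfl
  | step _ ih => exact fun x hx => Or.inl (ih hx)

theorem DD_inv {U : Set S} (j : ℕ) {s t : S} (h : s ∈ DD X Y U j) (hst : Y.SameCycle s t) :
    t ∈ DD X Y U j := by
  induction j generalizing s t with
  | zero =>
    obtain ⟨u, hu, hu'⟩ := h
    exact ⟨u, hst.symm.trans hu, hu'⟩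
  | succ j ih =>
    rcases h with h | ⟨u, hu, hu'⟩
    · exact Or.inl (ih h hst)
    · exact Or.inr ⟨u, hst.symm.trans hu, hu'⟩

theorem compl_sub_DD {U : Set S} (j : ℕ) : Uᶜ ⊆ DD X Y U j := fun s hs =>
  DD_mono (Nat.zero_le j) ⟨s, Equiv.Perm.SameCycle.refl _ _, hs⟩

theorem DD_path [Finite S] {U : Set S} (j : ℕ) {s : S} (h : s ∈ DD X Y U j) :
    ∃ t ∈ Uᶜ, Pth X Y (DD X Y U j) s t := by
  induction j generalizing s with
  | zero =>
    obtain ⟨t, ht, htU⟩ := id h
    exact ⟨t, htU, Pth.cyc (fun u hu => DD_inv 0 h hu) ht⟩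
  | succ j ih =>
    rcases id h with h' | ⟨u, hu, hu'⟩
    · obtain ⟨t, ht, hp⟩ := ih h'
      exact ⟨t, ht, hp.mono (DD_mono (Nat.le_succ j))⟩
    · have p1 : Pth X Y (DD X Y U (j + 1)) s u := Pth.cyc (fun v hv => DD_inv (j + 1) h hv) hu
      have hu1 : u ∈ DD X Y U (j + 1) := DD_inv (j + 1) h hu
      rcases hu' with hx | hx
      · obtain ⟨t, ht, hp⟩ := ih hx
        exact ⟨t, ht, p1.trans ((Pth.step hu1 (Or.inl hx) (Or.inl rfl)).trans
          (hp.mono (DD_mono (Nat.le_succ j))))⟩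
      · obtain ⟨t, ht, hp⟩ := ih hx
        exact ⟨t, ht, p1.trans ((Pth.step hu1 (Or.inl hx)
          (Or.inr (Or.inl (Equiv.apply_symm_apply X u)))).trans
          (hp.mono (DD_mono (Nat.le_succ j))))⟩

/-- the component of `s` in `V` -/
def comp (X Y : Equiv.Perm S) (V : Set S) (s : S) : Set S := {t | Pth X Y V s t}

theorem comp_sub {V : Set S} {s : S} (hs : s ∈ V) : comp X Y V s ⊆ V := fun _ ht => Pth.mem ht hs

theorem comp_step {V : Set S} {s t u : S} (ht : t ∈ comp X Y V s) (htV : t ∈ V) (hu : u ∈ V)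
    (h : adj X Y t u) : u ∈ comp X Y V s := Pth.trans ht (Pth.step htV hu h)

theorem comp_path {V : Set S} {s t : S} (ht : Pth X Y V s t) : Pth X Y (comp X Y V s) s t := by
  have key : ∀ u, Pth X Y V s u → Pth X Y (comp X Y V s) s u := by
    intro u hu
    unfold Pth at hu
    induction hu with
    | refl => exact Pth.refl _
    | @tail b c hb hbc ih =>
      exact ih.trans (Pth.step hb (Relation.ReflTransGen.tail hb hbc) hbc.2.2)
  exact key t ht

theorem comp_conn {V : Set S} {s : S} : Conn X Y (comp X Y V s) := fun _ ha _ hb =>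
  (comp_path ha).symm.trans (comp_path hb)

/-- the complement of a component off `DD j` is connected -/
theorem comp_compl_conn [Finite S] (htr : ∀ s t, Pth X Y Set.univ s t) {U : Set S}
    (hc : Uᶜ.Nonempty) (hcon : Conn X Y Uᶜ) (j : ℕ) {s : S} (hs : s ∉ DD X Y U j) :
    Conn X Y (comp X Y (DD X Y U j)ᶜ s)ᶜ := by
  set V := (DD X Y U j)ᶜ with hV
  set C := comp X Y V s with hC
  have hsV : s ∈ V := hs
  have hCV : C ⊆ V := comp_sub hsV
  have hDC : DD X Y U j ⊆ Cᶜ := fun x hx hxC => hCV hxC hx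
  have hUC : Uᶜ ⊆ Cᶜ := (compl_sub_DD j).trans hDC
  obtain ⟨u0, hu0⟩ := hc
  have key : ∀ a b, Pth X Y Set.univ a b → b ∈ Uᶜ → a ∉ C → ∃ t ∈ Uᶜ, Pth X Y Cᶜ a t := by
    intro a b hab hb
    unfold Pth at hab
    induction hab using Relation.ReflTransGen.head_induction_on with
    | refl => intro _; exact ⟨b, hb, Pth.refl _⟩
    | @head a a1 h1 _ ih =>
      intro haC
      by_cases haD : a ∈ DD X Y U j
      · obtain ⟨t, ht, hp⟩ := DD_path j haD
        exact ⟨t, ht, hp.mono hDC⟩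
      · have ha1 : a1 ∉ C := fun h =>
          haC (comp_step h (hCV h) haD (adj_symm X Y h1.2.2))
        obtain ⟨t, ht, hp⟩ := ih ha1
        exact ⟨t, ht, (Pth.step haC ha1 h1.2.2).trans hp⟩
  intro a ha b hb
  obtain ⟨t, ht, hp⟩ := key a u0 (htr a u0) hu0 ha
  obtain ⟨t', ht', hp'⟩ := key b u0 (htr b u0) hu0 hb
  exact hp.trans (((hcon t ht t' ht').mono hUC).trans hp'.symm)

/-- number of missing `X`-gluings of a set of squares -/
noncomputable def bx (X : Equiv.Perm S) (U : Set S) : ℕ := {s | s ∈ U ∧ X s ∉ U}.ncard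

/-- PEELING -/
theorem peel [Finite S] (htr : ∀ s t, Pth X Y Set.univ s t) (U : Set S)
    (hc : Uᶜ.Nonempty) (hcon : Conn X Y Uᶜ) (W e g : ℝ) (he : 0 ≤ e)
    (IH : ∀ C : Set S, C ⊆ U → C ≠ U → C.Nonempty → Conn X Y C → Conn X Y Cᶜ →
      e * C.ncard ≤ bx X C + W * bx Y C)
    (hg : ∀ s, (∀ t, Y.SameCycle s t → t ∈ U) → g ≤ {t | Y.SameCycle s t}.ncard)
    (J : ℕ) (hJ : (U.ncard : ℝ) < g * (1 + e) ^ J) (s : S) : s ∈ DD X Y U J := by
  by_contra hs
  have hsj : ∀ j ≤ J, s ∈ (DD X Y U j)ᶜ := fun j hj h => hs (DD_mono hj h)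
  have hCU : ∀ j ≤ J, comp X Y (DD X Y U j)ᶜ s ⊆ U := by
    intro j hj x hx
    by_contra hxU
    exact comp_sub (hsj j hj) hx (compl_sub_DD j hxU)
  have hsU : s ∈ U := by
    by_contra h
    exact hs (compl_sub_DD J h)
  obtain ⟨a, haU, b, hb, hab⟩ := exists_cross htr (U := U) ⟨s, hsU⟩ hc
  have ha1 : a ∈ DD X Y U 1 := by
    have hb0 : b ∈ DD X Y U 0 := compl_sub_DD 0 hb
    rcases hab with h | h | h | h
    · exact Or.inr ⟨a, Equiv.Perm.SameCycle.refl _ _, Or.inl (h ▸ hb0)⟩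
    · exact Or.inr ⟨a, Equiv.Perm.SameCycle.refl _ _, Or.inr (by
        rw [← h, Equiv.symm_apply_apply]; exact hb0)⟩
    · refine Or.inl (DD_inv 0 hb0 ?_)
      rw [← h]; exact (Equiv.Perm.sameCycle_apply_left).2 (Equiv.Perm.SameCycle.refl _ _)
    · refine Or.inl (DD_inv 0 hb0 ?_)
      rw [← h]; exact (Equiv.Perm.sameCycle_apply_right).2 (Equiv.Perm.SameCycle.refl _ _)
  have step : ∀ j, j + 1 ≤ J → (1 + e) * (comp X Y (DD X Y U (j + 1))ᶜ s).ncard ≤
      (comp X Y (DD X Y U j)ᶜ s).ncard := by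
    intro j hj
    set C := comp X Y (DD X Y U (j + 1))ᶜ s with hCdef
    set C' := comp X Y (DD X Y U j)ᶜ s with hC'def
    have hCV : C ⊆ (DD X Y U (j + 1))ᶜ := comp_sub (hsj _ hj)
    have hCC' : C ⊆ C' := fun x hx =>
      Pth.mono (Set.compl_subset_compl.2 (DD_mono (Nat.le_succ j))) hx
    have hby : bx Y C = 0 := by
      unfold bx
      rw [Set.ncard_eq_zero (Set.toFinite _), Set.eq_empty_iff_forall_notMem]
      rintro x ⟨hx, hYx⟩
      refine hYx (comp_step hx (hCV hx) ?_ (Or.inr (Or.inr (Or.inl rfl))))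
      intro h
      refine hCV hx (DD_inv (j + 1) h ?_)
      exact (Equiv.Perm.sameCycle_apply_left).2 (Equiv.Perm.SameCycle.refl _ _)
    have hne : C ≠ U := by
      intro h
      have : a ∈ C := h ▸ haU
      exact hCV this (DD_mono (by omega) ha1)
    have h1 := IH C (hCU _ hj) hne ⟨s, Pth.refl _⟩ comp_conn
      (comp_compl_conn htr hc hcon (j + 1) (hsj _ hj))
    rw [hby] at h1
    have h2 : bx X C + C.ncard ≤ C'.ncard := by
      unfold bx
      rw [← Set.ncard_image_of_injective {s | s ∈ C ∧ X s ∉ C} X.injective,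
        ← Set.ncard_union_eq ?_ (Set.toFinite _) (Set.toFinite _)]
      · refine Set.ncard_le_ncard ?_ (Set.toFinite _)
        rintro x (⟨y, ⟨hy, hXy⟩, rfl⟩ | hx)
        · have h3 : X y ∈ DD X Y U (j + 1) := by
            by_contra h4
            exact hXy (comp_step hy (hCV hy) h4 (Or.inl rfl))
          have h4 : X y ∉ DD X Y U j := by
            intro h5
            exact hCV hy (Or.inr ⟨y, Equiv.Perm.SameCycle.refl _ _, Or.inl h5⟩)
          refine comp_step (hCC' hy) ?_ h4 (Or.inl rfl)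
          exact fun h => hCV hy (DD_mono (Nat.le_succ j) h)
        · exact hCC' hx
      · rw [Set.disjoint_left]
        rintro _ ⟨y, ⟨_, hXy⟩, rfl⟩ h
        exact hXy h
    have h3 : ((bx X C : ℕ) : ℝ) + C.ncard ≤ C'.ncard := by exact_mod_cast h2
    simp only [Nat.cast_zero, mul_zero, add_zero] at h1
    linarith
  have main : ∀ i, i ≤ J → g * (1 + e) ^ i ≤ (comp X Y (DD X Y U (J - i))ᶜ s).ncard := by
    intro i
    induction i with
    | zero =>
      intro _
      rw [pow_zero, mul_one, Nat.sub_zero]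
      have hsub : {t | Y.SameCycle s t} ⊆ comp X Y (DD X Y U J)ᶜ s := fun t ht =>
        Pth.cyc (fun u hu h => hs (DD_inv J h hu.symm)) ht
      refine (hg s (fun t ht => hCU J le_rfl (hsub ht))).trans ?_
      exact_mod_cast Set.ncard_le_ncard hsub (Set.toFinite _)
    | succ i ih =>
      intro hi
      have h1 := ih (by omega)
      have h2 := step (J - (i + 1)) (by omega)
      rw [show J - (i + 1) + 1 = J - i by omega] at h2
      calc g * (1 + e) ^ (i + 1) = (1 + e) * (g * (1 + e) ^ i) := by ring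
        _ ≤ (1 + e) * (comp X Y (DD X Y U (J - i))ᶜ s).ncard := by
          exact mul_le_mul_of_nonneg_left h1 (by linarith)
        _ ≤ _ := h2
  have h1 := main J le_rfl
  have h2 : ((comp X Y (DD X Y U (J - J))ᶜ s).ncard : ℝ) ≤ U.ncard := by
    exact_mod_cast Set.ncard_le_ncard (hCU _ (by omega)) (Set.toFinite _)
  linarith

/-- fan distance bounds the distance of vertices from the non-interior vertices -/
theorem DD_lay [Finite S] {U : Set S} (j : ℕ) {s : S} (h : s ∈ DD X Y U j) :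
    eV X Y s ∈ lay (en1 X Y) (en2 X Y) Set.univ (VI X Y U)ᶜ (2 * j) := by
  -- moving between e-vertices through an m-vertex
  have hm : ∀ (t : S) (n : ℕ), (eV X Y t ∈ lay (en1 X Y) (en2 X Y) Set.univ (VI X Y U)ᶜ n ↔
      eV X Y t ∈ lay (en1 X Y) (en2 X Y) Set.univ (VI X Y U)ᶜ n) := fun _ _ => Iff.rfl
  have toM : ∀ (t : S) (n : ℕ), eV X Y t ∈ lay (en1 X Y) (en2 X Y) Set.univ (VI X Y U)ᶜ n →
      mV X Y (Y t) ∈ lay (en1 X Y) (en2 X Y) Set.univ (VI X Y U)ᶜ (n + 1) := fun t n ht =>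
    Or.inr ⟨(t, true), trivial, Or.inr ⟨rfl, ht⟩⟩
  have toM' : ∀ (t : S) (n : ℕ), eV X Y t ∈ lay (en1 X Y) (en2 X Y) Set.univ (VI X Y U)ᶜ n →
      mV X Y t ∈ lay (en1 X Y) (en2 X Y) Set.univ (VI X Y U)ᶜ (n + 1) := fun t n ht => by
    have := toM (Y.symm t) n (by rw [← eV_Y, Equiv.apply_symm_apply]; exact ht)
    rwa [Equiv.apply_symm_apply] at this
  have toE : ∀ (t : S) (n : ℕ), mV X Y (Y t) ∈ lay (en1 X Y) (en2 X Y) Set.univ (VI X Y U)ᶜ n →
      eV X Y t ∈ lay (en1 X Y) (en2 X Y) Set.univ (VI X Y U)ᶜ (n + 1) := fun t n ht =>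
    Or.inr ⟨(t, true), trivial, Or.inl ⟨rfl, ht⟩⟩
  have toE' : ∀ (t : S) (n : ℕ), mV X Y t ∈ lay (en1 X Y) (en2 X Y) Set.univ (VI X Y U)ᶜ n →
      eV X Y t ∈ lay (en1 X Y) (en2 X Y) Set.univ (VI X Y U)ᶜ (n + 1) := fun t n ht => by
    have := toE (Y.symm t) n (by rw [Equiv.apply_symm_apply]; exact ht)
    rwa [← eV_Y, Equiv.apply_symm_apply] at this
  induction j generalizing s with
  | zero =>
    obtain ⟨t, ht, htU⟩ := h
    show eV X Y s ∉ VI X Y U
    intro hv
    refine htU (hv (t, true) (Or.inl ?_)).1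
    rw [en1_y, eV_eq]; exact ht.symm
  | succ j ih =>
    rcases h with h | ⟨t, ht, hx⟩
    · exact lay_mono (by omega) (ih h)
    · have hst : eV X Y s = eV X Y t := (eV_eq X Y).2 ht
      rw [hst]
      rcases hx with hx | hx
      · have h1 := toM (X t) _ (ih hx)
        rw [mV_Z] at h1
        exact toE' t _ h1
      · have h1 := toM' (X.symm t) _ (ih hx)
        rw [← mV_Z, Equiv.apply_symm_apply] at h1
        exact toE t _ h1

theorem all_lay [Finite S] {U : Set S} (J : ℕ) (h : ∀ s, s ∈ DD X Y U J) (v : Vt X Y) :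
    v ∈ lay (en1 X Y) (en2 X Y) Set.univ (VI X Y U)ᶜ (2 * J + 2) := by
  have hm : ∀ s, mV X Y s ∈ lay (en1 X Y) (en2 X Y) Set.univ (VI X Y U)ᶜ (2 * J + 1) := fun s => by
    refine Or.inr ⟨(Y.symm s, true), trivial, Or.inr ⟨?_, ?_⟩⟩
    · rw [en2_y, Equiv.apply_symm_apply]
    · exact DD_lay J (h _)
  rcases v with v | v | v
  · induction v using Quotient.inductionOn with
    | h s => exact Or.inr ⟨(s, false), trivial, Or.inl ⟨rfl, hm s⟩⟩
  · induction v using Quotient.inductionOn with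
    | h s => exact lay_mono (by omega) (DD_lay J (h s))
  · induction v using Quotient.inductionOn with
    | h s => exact lay_mono (by omega) (hm s)

end Vale.Agent.P201.H
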